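import Vale.Agent.P142.Circle

/-!
# The area theorem, in Dirichlet integral form
-/

open Metric Set Filter Function Complex MeasureTheory Real
open scoped Topology ComplexConjugate

namespace Vale.Agent.P142

lemma diff_deriv {P : ℂ → ℂ} (hP : DifferentiableOn ℂ P (ball 0 1)) :
    DifferentiableOn ℂ (deriv P) (ball 0 1) := hP.deriv isOpen_ball

lemma avg_cross {Q : ℂ → ℂ} (c : ℂ) {r : ℝ} (hr : 0 < r)
    (hQ : DifferentiableOn ℂ Q (closedBall 0 r)) :
    circleAverage (fun u => ‖-c / u ^ 2 + Q u‖ ^ 2) 0 r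
      = ‖c‖ ^ 2 / r ^ 4 + circleAverage (fun u => ‖Q u‖ ^ 2) 0 r := by
  have hH : DifferentiableOn ℂ (fun u => conj c * u ^ 2 * Q u) (closedBall 0 r) :=
    ((differentiableOn_pow 2).const_mul _).mul hQ
  have hcH : CircleIntegrable (fun u => conj c * u ^ 2 * Q u) 0 r :=
    (hH.continuousOn.mono sphere_subset_closedBall).circleIntegrable hr.le
  have hcQ : CircleIntegrable (fun u => ‖Q u‖ ^ 2) 0 r :=
    ((hQ.continuousOn.mono sphere_subset_closedBall).norm.pow 2).circleIntegrable hr.le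
  have h0 : circleAverage (fun u => (conj c * u ^ 2 * Q u).re) 0 r = 0 := by
    have := Complex.reCLM.circleAverage_comp_comm hcH
    rw [avg_holo hr hH] at this
    exact this.trans (by simp)
  have hcR : CircleIntegrable (fun u => (conj c * u ^ 2 * Q u).re) 0 r :=
    (Complex.continuous_re.comp_continuousOn
      (hH.continuousOn.mono sphere_subset_closedBall)).circleIntegrable hr.le
  have e : EqOn (fun u => ‖-c / u ^ 2 + Q u‖ ^ 2)
      (fun u => (‖c‖ ^ 2 / r ^ 4 + ‖Q u‖ ^ 2) + (-2 / r ^ 4) • (conj c * u ^ 2 * Q u).re)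
      (sphere 0 |r|) := by
    intro u hu
    rw [abs_of_pos hr] at hu
    have hn : ‖u‖ = r := by simpa using hu
    have hu0 : u ≠ 0 := by
      rintro rfl
      simp at hn
      exact hr.ne hn
    have hcu : conj u = (r : ℂ) ^ 2 / u := by
      rw [eq_div_iff hu0, Complex.conj_mul', hn]
    have hr' : (r : ℂ) ≠ 0 := by exact_mod_cast hr.ne'
    have h1 : conj (-c / u ^ 2) * Q u = ((-1 / r ^ 4 : ℝ) : ℂ) * (conj c * u ^ 2 * Q u) := by
      simp only [map_div₀, map_neg, map_pow, hcu]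
      push_cast
      field_simp
    have h2 : ‖-c / u ^ 2 + Q u‖ ^ 2 = ‖-c / u ^ 2‖ ^ 2 + ‖Q u‖ ^ 2
        + 2 * (conj (-c / u ^ 2) * Q u).re := by
      simp only [Complex.sq_norm, Complex.normSq_add]
      congr 2
      rw [← Complex.conj_re]
      simp
    simp only
    rw [h2, h1, Complex.re_ofReal_mul, norm_div, norm_neg, norm_pow, hn, smul_eq_mul]
    field_simp
  rw [circleAverage_congr_sphere e,
    circleAverage_fun_add (f₁ := fun u => ‖c‖ ^ 2 / r ^ 4 + ‖Q u‖ ^ 2)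
      ((circleIntegrable_const _ _ _).add hcQ) (hcR.const_fun_smul),
    circleAverage_fun_add (circleIntegrable_const _ _ _) hcQ, circleAverage_fun_smul, h0,
    circleAverage_const]
  simp

lemma ann_sub {a b : ℝ} (hb : b ≤ 1) : ann a b ⊆ ball 0 1 := fun _ hz =>
  mem_ball_zero_iff.2 (hz.2.trans_le hb)

lemma ann_ne {a b : ℝ} (ha : 0 ≤ a) {z : ℂ} (hz : z ∈ ann a b) : z ≠ 0 :=
  norm_pos_iff.1 (ha.trans_lt hz.1)

lemma image_area {P : ℂ → ℂ} {c : ℂ} (hP : DifferentiableOn ℂ P (ball 0 1))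
    (hi : InjOn (fun u => c / u + P u) (ann 0 1)) {ε ρ : ℝ} (hε : 0 < ε) (hερ : ε ≤ ρ)
    (hρ : ρ ≤ 1) :
    volume ((fun u => c / u + P u) '' ann ε ρ)
      = ENNReal.ofReal (π * ‖c‖ ^ 2 * (1 / ε ^ 2 - 1 / ρ ^ 2))
        + ∫⁻ u in ann ε ρ, ENNReal.ofReal (‖deriv P u‖ ^ 2) := by
  have hsub : ann ε ρ ⊆ ann 0 1 := fun z hz => ⟨hε.trans hz.1, hz.2.trans_le hρ⟩
  have hder : ∀ u ∈ ann ε ρ, HasDerivAt (fun u => c / u + P u) (-c / u ^ 2 + deriv P u) u := by
    intro u hu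
    have h1 := ((hasDerivAt_const u c).fun_div (hasDerivAt_id' u) (ann_ne hε.le hu)).fun_add
      (hP.differentiableAt (isOpen_ball.mem_nhds (ann_sub hρ hu))).hasDerivAt
    simpa using h1
  have hP' := diff_deriv hP
  rw [← setLIntegral_one, change_var (isOpen_ann ε ρ)
    (fun u hu => (hder u hu).differentiableAt.differentiableWithinAt) (hi.mono hsub)]
  simp only [mul_one]
  rw [setLIntegral_congr_fun (isOpen_ann ε ρ).measurableSet
    (g := fun u => ENNReal.ofReal (‖-c / u ^ 2 + deriv P u‖ ^ 2))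
    (fun u hu => by simp only [(hder u hu).deriv])]
  have hc2 : ContinuousOn (fun u => ‖deriv P u‖ ^ 2) (ann ε ρ) :=
    (hP'.continuousOn.mono (ann_sub hρ)).norm.pow 2
  have hc1 : ContinuousOn (fun u => ‖-c / u ^ 2 + deriv P u‖ ^ 2) (ann ε ρ) :=
    ((continuousOn_const.div (continuousOn_pow 2) fun u hu =>
      pow_ne_zero 2 (ann_ne hε.le hu)).add (hP'.continuousOn.mono (ann_sub hρ))).norm.pow 2
  rw [polar hε.le hc1 (fun _ _ => by positivity), polar hε.le hc2 (fun _ _ => by positivity)]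
  have hI : ∫ r in ε..ρ, 2 * π * ‖c‖ ^ 2 / r ^ 3 = π * ‖c‖ ^ 2 * (1 / ε ^ 2 - 1 / ρ ^ 2) := by
    rw [intervalIntegral.integral_eq_sub_of_hasDerivAt (f := fun r => -(π * ‖c‖ ^ 2) / r ^ 2)]
    · ring
    · intro r hr
      rw [uIcc_of_le hερ] at hr
      have hr0 : r ≠ 0 := (hε.trans_le hr.1).ne'
      have := (hasDerivAt_const r (-(π * ‖c‖ ^ 2))).fun_div (hasDerivAt_pow 2 r) (pow_ne_zero 2 hr0)
      refine this.congr_deriv ?_
      simp only [Nat.cast_ofNat, Nat.add_one_sub_one, pow_one]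
      field_simp
      ring
    · refine ContinuousOn.intervalIntegrable (continuousOn_const.div (continuousOn_pow 3) ?_)
      intro r hr
      rw [uIcc_of_le hερ] at hr
      exact pow_ne_zero 3 (hε.trans_le hr.1).ne'
  have hInt : IntegrableOn (fun r : ℝ => 2 * π * ‖c‖ ^ 2 / r ^ 3) (Ioo ε ρ) := by
    refine (ContinuousOn.integrableOn_compact isCompact_Icc
      (continuousOn_const.div (continuousOn_pow 3) ?_)).mono_set Ioo_subset_Icc_self
    exact fun r hr => pow_ne_zero 3 (hε.trans_le hr.1).ne'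
  rw [← hI, intervalIntegral.integral_of_le hερ, integral_Ioc_eq_integral_Ioo,
    ofReal_integral_eq_lintegral_ofReal hInt, ← lintegral_add_left' hInt.aemeasurable.ennreal_ofReal]
  · refine setLIntegral_congr_fun measurableSet_Ioo fun r hr => ?_
    have hr0 := hε.trans hr.1
    rw [avg_cross c hr0 (hP'.mono (closedBall_subset_ball (hr.2.trans_le hρ))),
      ← ENNReal.ofReal_add (by positivity)
        (mul_nonneg (by positivity) (circleAverage_nonneg_of_nonneg fun _ _ => by positivity))]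
    congr 1
    field_simp
  · filter_upwards [ae_restrict_mem measurableSet_Ioo] with r hr
    have hr0 := hε.trans hr.1
    simp only [Pi.zero_apply]
    positivity

lemma max_skew {G : ℂ → ℂ} (κ : ℂ) {ε ρ K : ℝ}
    (hG : DifferentiableOn ℂ G {u | ε ≤ ‖u‖ ∧ ‖u‖ ≤ ρ})
    (hb : ∀ u, ‖u‖ = ε ∨ ‖u‖ = ρ → ε ≤ ‖u‖ → ‖u‖ ≤ ρ → ‖G u - κ * conj (G u)‖ ≤ K)
    {u : ℂ} (hu : u ∈ ann ε ρ) : ‖G u - κ * conj (G u)‖ ≤ K := by
  obtain ⟨e, he, hew⟩ : ∃ e : ℂ, ‖e‖ = 1 ∧
      (e * (G u - κ * conj (G u))).re = ‖G u - κ * conj (G u)‖ := by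
    obtain ⟨e, he, h⟩ := Complex.exists_norm_mul_eq_self (G u - κ * conj (G u))
    refine ⟨conj e, by simpa using he, ?_⟩
    set w := G u - κ * conj (G u)
    have : conj e * w = ‖w‖ := by
      calc conj e * w = conj e * (e * ‖w‖) := by rw [h]
        _ = (conj e * e) * ‖w‖ := by ring
        _ = ‖w‖ := by rw [Complex.conj_mul', he]; simp
    rw [this]
    simp
  have key : ∀ w : ℂ, ((e - conj e * conj κ) * w).re = (e * (w - κ * conj w)).re := by
    intro w
    simp only [sub_re, mul_re, mul_im, conj_re, conj_im, sub_im]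
    ring
  have hcl : closure (ann ε ρ) ⊆ {u | ε ≤ ‖u‖ ∧ ‖u‖ ≤ ρ} :=
    closure_minimal (fun z hz => ⟨hz.1.le, hz.2.le⟩)
      ((isClosed_le continuous_const continuous_norm).inter
        (isClosed_le continuous_norm continuous_const))
  have hd : DiffContOnCl ℂ (fun u => cexp ((e - conj e * conj κ) * G u)) (ann ε ρ) :=
    (((hG.const_mul _).cexp).mono hcl).diffContOnCl
  have hbd : Bornology.IsBounded (ann ε ρ) :=
    isBounded_ball.subset (show ann ε ρ ⊆ ball (0 : ℂ) ρ from fun z hz => mem_ball_zero_iff.2 hz.2)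
  have h := Complex.norm_le_of_forall_mem_frontier_norm_le hbd hd (C := rexp K) (fun z hz => by
    have hz1 := hcl hz.1
    have hz2 : z ∉ ann ε ρ := by
      have := hz.2
      rwa [(isOpen_ann ε ρ).interior_eq] at this
    have hz3 : ‖z‖ = ε ∨ ‖z‖ = ρ := by
      by_contra hcon
      push Not at hcon
      exact hz2 ⟨lt_of_le_of_ne hz1.1 hcon.1.symm, lt_of_le_of_ne hz1.2 hcon.2⟩
    rw [Complex.norm_exp, key, Real.exp_le_exp]
    refine (Complex.re_le_norm _).trans ?_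
    rw [norm_mul, he, one_mul]
    exact hb z hz3 hz1.1 hz1.2) (subset_closure hu)
  rwa [Complex.norm_exp, key, Real.exp_le_exp, hew] at h

/-- The real linear map sending `w` to `w - κ conj w`. -/
noncomputable def skew (κ : ℂ) : ℂ →L[ℝ] ℂ :=
  ContinuousLinearMap.id ℝ ℂ - (ContinuousLinearMap.mul ℝ ℂ κ).comp (Complex.conjCLE : ℂ →L[ℝ] ℂ)

lemma skew_apply (κ w : ℂ) : skew κ w = w - κ * conj w := by simp [skew]

lemma det_skew (κ : ℂ) : (skew κ).det = 1 - ‖κ‖ ^ 2 := by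
  rw [ContinuousLinearMap.det, ← LinearMap.det_toMatrix basisOneI, Matrix.det_fin_two]
  simp [LinearMap.toMatrix_apply, skew_apply, Complex.sq_norm, Complex.normSq_apply]
  ring

lemma image_bound {P : ℂ → ℂ} {c : ℂ} (hc : c ≠ 0) (hP : DifferentiableOn ℂ P (ball 0 1))
    {ρ : ℝ} (hρ0 : 0 < ρ) (hρ : ρ < 1) :
    ∃ C : ℝ, 0 ≤ C ∧ ∀ᶠ ε in 𝓝[>] (0 : ℝ), volume ((fun u => c / u + P u) '' ann ε ρ)
      ≤ ENNReal.ofReal (π * (‖c‖ ^ 2 / ε ^ 2 + C * ε)) := by
  have hb : ball (0 : ℂ) 1 ∈ 𝓝 (0 : ℂ) := ball_mem_nhds 0 one_pos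
  set p := dslope P 0 0
  set Q := dslope (dslope P 0) 0
  have hQ : DifferentiableOn ℂ Q (ball 0 1) :=
    (Complex.differentiableOn_dslope hb).2 ((Complex.differentiableOn_dslope hb).2 hP)
  have hexp : ∀ u, P u = P 0 + u * p + u ^ 2 * Q u := by
    intro u
    have h1 := sub_smul_dslope P 0 u
    have h2 := sub_smul_dslope (dslope P 0) 0 u
    simp only [sub_zero, smul_eq_mul] at h1 h2
    linear_combination -h1 - u * h2
  obtain ⟨M, hM⟩ := (isCompact_closedBall (0 : ℂ) ρ).exists_bound_of_continuousOn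
    (hQ.continuousOn.mono (closedBall_subset_ball hρ))
  have hM0 : 0 ≤ M := (norm_nonneg _).trans (hM 0 (mem_closedBall_self hρ0.le))
  have hc0 : 0 < ‖c‖ := norm_pos_iff.2 hc
  set B := ‖c‖ / ρ + ‖p‖ + M with hB
  have hB0 : 0 < B := by positivity
  refine ⟨4 * M * ‖c‖ + 6 * M ^ 2, by positivity, ?_⟩
  have ev1 : ∀ᶠ ε in 𝓝[>] (0 : ℝ), ε < ‖c‖ / (4 * B) :=
    nhdsWithin_le_nhds (Iio_mem_nhds (by positivity))
  have ev2 : ∀ᶠ ε in 𝓝[>] (0 : ℝ), ε < 1 := nhdsWithin_le_nhds (Iio_mem_nhds one_pos)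
  filter_upwards [ev1, ev2, self_mem_nhdsWithin] with ε h1 h2 h3
  have hε : 0 < ε := h3
  rw [lt_div_iff₀ (by positivity)] at h1
  set κ : ℂ := p * (ε : ℂ) ^ 2 / conj c with hκ
  have hκn : ‖κ‖ = ‖p‖ * ε ^ 2 / ‖c‖ := by
    simp [hκ, abs_of_pos hε]
  have hκ2 : ‖κ‖ ≤ 1 / 2 := by
    rw [hκn, div_le_iff₀ hc0]
    have : ‖p‖ ≤ B := by
      have : 0 ≤ ‖c‖ / ρ := by positivity
      linarith
    have h4 : ‖p‖ * ε ^ 2 ≤ B * ε := by
      have : ε ^ 2 ≤ ε := by nlinarith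
      exact mul_le_mul ‹_› this (by positivity) hB0.le
    nlinarith
  set d := 1 - ‖κ‖ ^ 2 with hd
  have hd1 : 3 / 4 ≤ d := by nlinarith [norm_nonneg κ]
  have hd2 : d ≤ 1 := by nlinarith [norm_nonneg κ]
  set K := d * ‖c‖ / ε + 2 * M * ε ^ 2 with hK
  have hT : ∀ w : ℂ, ‖w - κ * conj w‖ ≤ 2 * ‖w‖ := by
    intro w
    refine (norm_sub_le _ _).trans ?_
    rw [norm_mul, Complex.norm_conj]
    nlinarith [norm_nonneg w, norm_nonneg κ]
  have hin : skew κ '' ((fun u => c / u + P u) '' ann ε ρ) ⊆ closedBall (skew κ (P 0)) K := by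
    rintro _ ⟨_, ⟨u, hu, rfl⟩, rfl⟩
    rw [mem_closedBall, dist_eq_norm, ← map_sub, skew_apply]
    refine max_skew (G := fun u => c / u + P u - P 0) κ ?_ ?_ hu
    · intro z hz
      refine DifferentiableAt.differentiableWithinAt (DifferentiableAt.sub_const ?_ _)
      refine ((differentiableAt_const c).div differentiableAt_id
        (norm_pos_iff.1 (hε.trans_le hz.1))).add ?_
      exact hP.differentiableAt (isOpen_ball.mem_nhds (mem_ball_zero_iff.2 (hz.2.trans_lt hρ)))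
    · intro z hz hz1 hz2
      have hz0 : z ≠ 0 := norm_pos_iff.1 (hε.trans_le hz1)
      have hMz := hM z (mem_closedBall_zero_iff.2 hz2)
      have eG : c / z + P z - P 0 = (c / z + z * p) + z ^ 2 * Q z := by
        rw [hexp z]
        ring
      simp only [eG]
      rcases hz with hz | hz
      · have hcz : conj z = (ε : ℂ) ^ 2 / z := by
          rw [eq_div_iff hz0, Complex.conj_mul', hz]
        have hcc : conj c ≠ 0 := by simpa using hc
        have hε' : (ε : ℂ) ≠ 0 := by exact_mod_cast hε.ne'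
        have e1 : z * p = κ * conj (c / z) := by
          rw [hκ, map_div₀, hcz]
          field_simp
        have e2 : (c / z + z * p) + z ^ 2 * Q z - κ * conj ((c / z + z * p) + z ^ 2 * Q z)
            = (d : ℂ) * (c / z) + (z ^ 2 * Q z - κ * conj (z ^ 2 * Q z)) := by
          rw [e1, hd]
          simp only [map_add, map_mul, Complex.conj_conj]
          push_cast
          rw [← Complex.mul_conj']
          ring
        rw [e2]
        refine (norm_add_le _ _).trans (add_le_add (le_of_eq ?_) ((hT _).trans ?_))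
        · rw [norm_mul, norm_div, hz, Complex.norm_real, Real.norm_of_nonneg (by linarith)]
          ring
        · rw [norm_mul, norm_pow, hz]
          nlinarith [sq_nonneg ε]
      · refine (hT _).trans ?_
        have h5 : ‖(c / z + z * p) + z ^ 2 * Q z‖ ≤ B := by
          refine (norm_add_le _ _).trans (add_le_add ((norm_add_le _ _).trans
            (add_le_add (le_of_eq ?_) ?_)) ?_)
          · rw [norm_div, hz]
          · rw [norm_mul, hz]
            nlinarith [norm_nonneg p]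
          · rw [norm_mul, norm_pow, hz]
            have : ρ ^ 2 ≤ 1 := by nlinarith
            nlinarith [norm_nonneg (Q z)]
        have h6 : 2 * B ≤ d * ‖c‖ / ε := by
          rw [le_div_iff₀ hε]
          nlinarith
        have : 0 ≤ 2 * M * ε ^ 2 := by positivity
        linarith
  have hvol := measure_mono (μ := volume) hin
  rw [Measure.addHaar_image_continuousLinearMap, Complex.volume_closedBall] at hvol
  have hdet : LinearMap.det (skew κ : ℂ →ₗ[ℝ] ℂ) = d := det_skew κ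
  have hd0 : 0 < d := by linarith
  have hK0 : 0 ≤ K := by positivity
  rw [hdet, abs_of_pos hd0] at hvol
  refine (ENNReal.mul_le_mul_iff_right (a := ENNReal.ofReal d) (by simpa using hd0)
    ENNReal.ofReal_ne_top).1 (hvol.trans ?_)
  rw [← ENNReal.ofReal_mul hd0.le, ← ENNReal.ofReal_pow hK0, ← ENNReal.ofReal_coe_nnreal,
    NNReal.coe_real_pi, ← ENNReal.ofReal_mul (by positivity)]
  refine ENNReal.ofReal_le_ofReal ?_
  have e3 : K ^ 2 = d * (d * (‖c‖ ^ 2 / ε ^ 2) + 4 * M * ‖c‖ * ε) + 4 * M ^ 2 * ε ^ 4 := by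
    rw [hK]
    field_simp
    ring
  have e4 : 4 * M ^ 2 * ε ^ 4 ≤ d * (6 * M ^ 2 * ε) := by
    have : ε ^ 4 ≤ ε := by
      have : ε ^ 3 ≤ 1 := pow_le_one₀ hε.le h2.le
      nlinarith
    have h7 : 0 ≤ M ^ 2 := sq_nonneg M
    nlinarith [mul_nonneg h7 hε.le]
  have e5 : d * (‖c‖ ^ 2 / ε ^ 2) ≤ ‖c‖ ^ 2 / ε ^ 2 := mul_le_of_le_one_left (by positivity) hd2
  have e6 : K ^ 2 ≤ d * (‖c‖ ^ 2 / ε ^ 2 + (4 * M * ‖c‖ + 6 * M ^ 2) * ε) := by
    rw [e3]
    nlinarith
  nlinarith [pi_pos]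

theorem area {P : ℂ → ℂ} {c : ℂ} (hc : c ≠ 0) (hP : DifferentiableOn ℂ P (ball 0 1))
    (hi : InjOn (fun u => c / u + P u) (ann 0 1)) :
    ∫⁻ u in ann 0 1, ENNReal.ofReal (‖deriv P u‖ ^ 2) ≤ ENNReal.ofReal (π * ‖c‖ ^ 2) := by
  have step1 : ∀ a ρ : ℝ, 0 < a → 0 < ρ → ρ < 1 →
      ∫⁻ u in ann a ρ, ENNReal.ofReal (‖deriv P u‖ ^ 2)
        ≤ ENNReal.ofReal (π * (‖c‖ ^ 2 / ρ ^ 2 + 0)) := by
    intro a ρ ha hρ0 hρ
    obtain ⟨C, hC, hev⟩ := image_bound hc hP hρ0 hρ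
    have ht : Tendsto (fun ε : ℝ => ENNReal.ofReal (π * (‖c‖ ^ 2 / ρ ^ 2 + C * ε))) (𝓝[>] 0)
        (𝓝 (ENNReal.ofReal (π * (‖c‖ ^ 2 / ρ ^ 2 + 0)))) := by
      refine ENNReal.tendsto_ofReal (tendsto_nhdsWithin_of_tendsto_nhds ?_)
      refine Continuous.tendsto' (by fun_prop) _ _ (by simp)
    refine ge_of_tendsto ht ?_
    filter_upwards [hev, nhdsWithin_le_nhds (Iio_mem_nhds ha),
      nhdsWithin_le_nhds (Iio_mem_nhds hρ0), self_mem_nhdsWithin] with ε h1 h2 h3 h4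
    have hε : 0 < ε := h4
    have h3' : ε < ρ := h3
    rw [image_area hP hi hε h3'.le hρ.le] at h1
    refine (lintegral_mono_set (show ann a ρ ⊆ ann ε ρ from fun z hz =>
      ⟨lt_trans h2 hz.1, hz.2⟩)).trans ?_
    have h5 : 0 ≤ 1 / ε ^ 2 - 1 / ρ ^ 2 :=
      sub_nonneg.2 (one_div_le_one_div_of_le (by positivity) (by nlinarith))
    refine (ENNReal.add_le_add_iff_left ENNReal.ofReal_ne_top).1 (h1.trans (le_of_eq ?_))
    rw [← ENNReal.ofReal_add (by positivity) (by positivity)]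
    congr 1
    ring
  have step2 : ∀ a b : ℝ, 0 < a → b < 1 →
      ∫⁻ u in ann a b, ENNReal.ofReal (‖deriv P u‖ ^ 2) ≤ ENNReal.ofReal (π * ‖c‖ ^ 2) := by
    intro a b ha hb
    have ht : Tendsto (fun ρ : ℝ => ENNReal.ofReal (π * (‖c‖ ^ 2 / ρ ^ 2 + 0))) (𝓝[<] 1)
        (𝓝 (ENNReal.ofReal (π * ‖c‖ ^ 2))) := by
      refine ENNReal.tendsto_ofReal (tendsto_nhdsWithin_of_tendsto_nhds ?_)
      have : ContinuousAt (fun ρ : ℝ => π * (‖c‖ ^ 2 / ρ ^ 2 + 0)) 1 := by
        fun_prop (disch := norm_num)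
      simpa using this.tendsto
    refine ge_of_tendsto ht ?_
    filter_upwards [nhdsWithin_le_nhds (Ioi_mem_nhds hb), nhdsWithin_le_nhds (Ioi_mem_nhds one_pos),
      self_mem_nhdsWithin] with ρ h1 h2 h3
    exact (lintegral_mono_set (show ann a b ⊆ ann a ρ from fun z hz =>
      ⟨hz.1, lt_trans hz.2 h1⟩)).trans (step1 a ρ ha h2 h3)
  have hU : ann 0 1 = ⋃ n : ℕ, ann (1 / (n + 1 : ℝ)) (1 - 1 / (n + 1 : ℝ)) := by
    ext z
    simp only [mem_iUnion]
    constructor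
    · intro hz
      obtain ⟨n, hn⟩ := exists_nat_one_div_lt (lt_min hz.1 (sub_pos.2 hz.2))
      rw [lt_min_iff] at hn
      exact ⟨n, hn.1, by linarith [hn.2]⟩
    · rintro ⟨n, hn⟩
      have : 0 < 1 / (n + 1 : ℝ) := by positivity
      exact ⟨this.trans hn.1, by linarith [hn.2]⟩
  rw [hU, setLIntegral_iUnion_of_directed]
  · refine iSup_le fun n => step2 _ _ (by positivity) ?_
    have : 0 < 1 / (n + 1 : ℝ) := by positivity
    linarith
  · refine Monotone.directed_le fun m n hmn z hz => ?_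
    have : 1 / (n + 1 : ℝ) ≤ 1 / (m + 1 : ℝ) := Nat.one_div_le_one_div hmn
    exact ⟨this.trans_lt hz.1, by linarith [hz.2]⟩

end Vale.Agent.P142
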