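import Mathlib

/-!
# Circle means, Laurent and Taylor coefficients, Parseval, polar coordinates
-/

open Metric Set Filter Function Complex MeasureTheory Real
open scoped Topology ComplexConjugate

namespace Vale.Agent.P142

/-- The Laurent coefficient of `F` on the circle of radius `r`. -/
noncomputable def lc (F : ℂ → ℂ) (r : ℝ) (n : ℤ) : ℂ :=
  circleAverage (fun z => F z * z ^ (-n)) 0 r

/-- The Taylor coefficient of `F` at the origin. -/
noncomputable def co (F : ℂ → ℂ) (n : ℕ) : ℂ := iteratedDeriv n F 0 / (n.factorial : ℂ)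

lemma cm_mem {r : ℝ} (hr : 0 < r) (θ : ℝ) : circleMap 0 r θ ∈ sphere (0 : ℂ) r :=
  circleMap_mem_sphere 0 hr.le θ

lemma norm_cm {r : ℝ} (hr : 0 < r) (θ : ℝ) : ‖circleMap 0 r θ‖ = r := by
  simpa using cm_mem hr θ

lemma cm_ne {r : ℝ} (hr : 0 < r) (θ : ℝ) : circleMap 0 r θ ≠ 0 :=
  circleMap_ne_center hr.ne'

lemma cont_cm {E : Type*} [TopologicalSpace E] {F : ℂ → E} {r : ℝ} (hr : 0 < r)
    (hF : ContinuousOn F (sphere 0 r)) : Continuous fun θ => F (circleMap 0 r θ) :=
  hF.comp_continuous (continuous_circleMap 0 r) (cm_mem hr)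

lemma parseval {F : ℂ → ℂ} {r : ℝ} (hr : 0 < r)
    (hF : Continuous fun θ => F (circleMap 0 r θ)) :
    HasSum (fun n : ℤ => ‖lc F r n‖ ^ 2 * r ^ (2 * n))
      (circleAverage (fun z => ‖F z‖ ^ 2) 0 r) := by
  have hL : MemLp (fun θ => F (circleMap 0 r θ)) 2 (volume.restrict (Ioc 0 (2 * π))) := by
    obtain ⟨C, hC⟩ := (isCompact_Icc (a := 0) (b := 2 * π)).exists_bound_of_continuousOn
      hF.continuousOn
    refine MemLp.of_bound hF.aestronglyMeasurable C ?_
    filter_upwards [ae_restrict_mem measurableSet_Ioc] with x hx using hC x (Ioc_subset_Icc_self hx)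
  have h := hasSum_sq_fourierCoeffOn two_pi_pos hL
  have e1 : ∀ n : ℤ, fourierCoeffOn two_pi_pos (fun θ => F (circleMap 0 r θ)) n
      = lc F r n * (r : ℂ) ^ n := by
    intro n
    rw [fourierCoeffOn_eq_integral, lc, circleAverage, smul_mul_assoc,
      ← intervalIntegral.integral_mul_const]
    simp only [sub_zero, one_div]
    congr 1
    refine intervalIntegral.integral_congr fun θ _ => ?_
    have hr' : (r : ℂ) ≠ 0 := by exact_mod_cast hr.ne'
    have hpi : (π : ℂ) ≠ 0 := by exact_mod_cast pi_ne_zero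
    simp only [fourier_coe_apply, smul_eq_mul, circleMap, zero_add, mul_zpow]
    rw [← Complex.exp_int_mul, zpow_neg]
    have : 2 * (π : ℂ) * I * ((-n : ℤ) : ℂ) * θ / ((2 * π - 0 : ℝ) : ℂ)
        = ((-n : ℤ) : ℂ) * (θ * I) := by
      rw [sub_zero]
      push_cast
      field_simp
    rw [this]
    have : (r : ℂ) ^ n ≠ 0 := zpow_ne_zero _ hr'
    field_simp
  simp only [e1, sub_zero] at h
  have e2 : (fun n : ℤ => ‖lc F r n‖ ^ 2 * r ^ (2 * n))
      = fun n : ℤ => ‖lc F r n * (r : ℂ) ^ n‖ ^ 2 := by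
    funext n
    rw [norm_mul, norm_zpow, Complex.norm_real, Real.norm_of_nonneg hr.le, mul_pow, two_mul,
      zpow_add₀ hr.ne', sq (r ^ n)]
  rw [e2]
  exact h

lemma bessel {F : ℂ → ℂ} {r : ℝ} (hr : 0 < r)
    (hF : Continuous fun θ => F (circleMap 0 r θ)) (N : ℕ) :
    ∑ n ∈ Finset.range N, ‖lc F r n‖ ^ 2 * r ^ (2 * n)
      ≤ circleAverage (fun z => ‖F z‖ ^ 2) 0 r := by
  have h := sum_le_hasSum ((Finset.range N).map ⟨((↑) : ℕ → ℤ), Nat.cast_injective⟩)
    (fun n _ => by positivity) (parseval hr hF)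
  rw [Finset.sum_map] at h
  refine le_trans (le_of_eq (Finset.sum_congr rfl fun n _ => ?_)) h
  simp only [Embedding.coeFn_mk]
  rw [← zpow_natCast]
  push_cast
  rfl

lemma lc_eq_co {F : ℂ → ℂ} {r : ℝ} (hr : 0 < r) (hF : DifferentiableOn ℂ F (closedBall 0 r))
    (n : ℕ) : lc F r n = co F n := by
  have h := hF.circleIntegral_one_div_sub_center_pow_smul hr n
  rw [lc, circleAverage_eq_circleIntegral hr.ne', co]
  have e : (∮ z in C(0, r), (z - 0)⁻¹ • (F z * z ^ (-(n : ℤ))))
      = ∮ z in C(0, r), (1 / (z - 0) ^ (n + 1)) • F z := by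
    refine circleIntegral.integral_congr hr.le fun z _ => ?_
    simp only [sub_zero, smul_eq_mul, zpow_neg, zpow_natCast, pow_succ, one_div, mul_inv]
    ring
  rw [e, h]
  have : (2 * π * I : ℂ) ≠ 0 := two_pi_I_ne_zero
  have : (n.factorial : ℂ) ≠ 0 := by exact_mod_cast n.factorial_ne_zero
  simp only [smul_eq_mul]
  field_simp

lemma avg_holo {F : ℂ → ℂ} {r : ℝ} (hr : 0 < r) (hF : DifferentiableOn ℂ F (closedBall 0 r)) :
    circleAverage F 0 r = F 0 := by
  refine DiffContOnCl.circleAverage ?_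
  rw [abs_of_pos hr]
  exact (hF.mono closure_ball_subset_closedBall).diffContOnCl

lemma lc_neg {F : ℂ → ℂ} {r : ℝ} (hr : 0 < r) (hF : DifferentiableOn ℂ F (closedBall 0 r))
    (n : ℕ) : lc F r (-(n + 1 : ℕ)) = 0 := by
  rw [lc]
  simp only [neg_neg, zpow_natCast]
  rw [avg_holo (F := fun z => F z * z ^ (n + 1)) hr (hF.mul (differentiableOn_pow _))]
  simp

lemma parseval_holo {F : ℂ → ℂ} {r : ℝ} (hr : 0 < r)
    (hF : DifferentiableOn ℂ F (closedBall 0 r)) :
    HasSum (fun n : ℕ => ‖co F n‖ ^ 2 * r ^ (2 * n))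
      (circleAverage (fun z => ‖F z‖ ^ 2) 0 r) := by
  have h := parseval hr (cont_cm hr (hF.continuousOn.mono sphere_subset_closedBall))
  rw [← Function.Injective.hasSum_iff (Nat.cast_injective (R := ℤ))] at h
  · have e : (fun n : ℕ => ‖co F n‖ ^ 2 * r ^ (2 * n))
        = (fun n : ℤ => ‖lc F r n‖ ^ 2 * r ^ (2 * n)) ∘ Nat.cast := by
      funext n
      simp only [comp]
      rw [lc_eq_co hr hF, ← zpow_natCast r]
      push_cast
      rfl
    rw [e]
    exact h
  · intro n hn
    obtain ⟨m, rfl⟩ : ∃ m : ℕ, n = -((m + 1 : ℕ) : ℤ) := by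
      rcases n with m | m
      · exact absurd ⟨m, rfl⟩ hn
      · exact ⟨m, rfl⟩
    rw [lc_neg hr hF]
    simp

lemma avg_swap {G : ℂ → ℂ → ℂ} {s r : ℝ}
    (hG : Continuous fun p : ℝ × ℝ => G (circleMap 0 s p.1) (circleMap 0 r p.2)) :
    circleAverage (fun w => circleAverage (fun z => G z w) 0 s) 0 r
      = circleAverage (fun z => circleAverage (fun w => G z w) 0 r) 0 s := by
  simp only [circleAverage, intervalIntegral.integral_smul]
  congr 2
  symm
  refine intervalIntegral_intervalIntegral_swap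
    (F := fun x y => G (circleMap 0 s x) (circleMap 0 r y)) ?_
  refine (hG.continuousOn.integrableOn_compact
    ((isCompact_uIcc (a := 0) (b := 2 * π)).prod (isCompact_uIcc (a := 0) (b := 2 * π)))).mono_set ?_
  exact prod_mono uIoc_subset_uIcc uIoc_subset_uIcc

lemma avg_cont {G : ℂ → ℂ → ℂ} {s r : ℝ}
    (hG : Continuous fun p : ℝ × ℝ => G (circleMap 0 s p.1) (circleMap 0 r p.2)) :
    Continuous fun θ => circleAverage (fun z => G z (circleMap 0 r θ)) 0 s := by
  simp only [circleAverage]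
  refine Continuous.const_smul ?_ _
  refine intervalIntegral.continuous_parametric_intervalIntegral_of_continuous'
    (f := fun θ x => G (circleMap 0 s x) (circleMap 0 r θ)) ?_ _ _
  exact hG.comp continuous_swap

lemma avg_eq_pi {E : Type*} [NormedAddCommGroup E] [NormedSpace ℝ E] (g : ℂ → E) (r : ℝ) :
    circleAverage g 0 r = (2 * π)⁻¹ • ∫ θ in (-π)..π, g (circleMap 0 r θ) := by
  rw [circleAverage_eq_integral_add (-π),
    intervalIntegral.integral_comp_add_right (fun θ => g (circleMap 0 r θ))]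
  congr 2 <;> ring

/-- The open annulus. -/
def ann (a b : ℝ) : Set ℂ := {z | a < ‖z‖ ∧ ‖z‖ < b}

lemma isOpen_ann (a b : ℝ) : IsOpen (ann a b) :=
  (isOpen_lt continuous_const continuous_norm).inter (isOpen_lt continuous_norm continuous_const)

lemma polar {g : ℂ → ℝ} {a b : ℝ} (ha : 0 ≤ a) (hg : ContinuousOn g (ann a b))
    (h0 : ∀ z ∈ ann a b, 0 ≤ g z) :
    ∫⁻ z in ann a b, ENNReal.ofReal (g z)
      = ∫⁻ r in Ioo a b, ENNReal.ofReal (2 * π * r * circleAverage g 0 r) := by
  have hs : ∀ p : ℝ × ℝ, Complex.polarCoord.symm p = circleMap 0 p.1 p.2 := by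
    intro p
    rw [Complex.polarCoord_symm_apply, circleMap, zero_add, Complex.exp_mul_I]
    push_cast
    rfl
  have hmem : ∀ r ∈ Ioo a b, ∀ θ, circleMap 0 r θ ∈ ann a b := by
    intro r hr θ
    have := norm_cm (ha.trans_lt hr.1) θ
    exact ⟨by rw [this]; exact hr.1, by rw [this]; exact hr.2⟩
  rw [← lintegral_indicator (isOpen_ann a b).measurableSet,
    ← Complex.lintegral_comp_polarCoord_symm]
  have e : ∫⁻ p in polarCoord.target, ENNReal.ofReal p.1 •
      (ann a b).indicator (fun z => ENNReal.ofReal (g z)) (Complex.polarCoord.symm p)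
      = ∫⁻ p in Ioo a b ×ˢ Ioo (-π) π, ENNReal.ofReal (p.1 * g (circleMap 0 p.1 p.2)) := by
    have hsub : Ioo a b ×ˢ Ioo (-π) π ⊆ polarCoord.target := fun p hp =>
      ⟨ha.trans_lt hp.1.1, hp.2⟩
    rw [← inter_eq_left.2 hsub,
      ← Measure.restrict_restrict (measurableSet_Ioo.prod measurableSet_Ioo),
      ← lintegral_indicator (measurableSet_Ioo.prod measurableSet_Ioo)]
    refine setLIntegral_congr_fun polarCoord.open_target.measurableSet fun p hp => ?_
    have hp1 : 0 < p.1 := hp.1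
    simp only [hs]
    by_cases hab : p.1 ∈ Ioo a b
    · rw [indicator_of_mem (hmem _ hab _), 
        indicator_of_mem (show p ∈ Ioo a b ×ˢ Ioo (-π) π from ⟨hab, hp.2⟩),
        ENNReal.ofReal_mul hp1.le, smul_eq_mul]
    · rw [indicator_of_notMem, indicator_of_notMem (fun h => hab h.1), smul_zero]
      intro h
      have := norm_cm hp1 p.2
      exact hab ⟨this ▸ h.1, this ▸ h.2⟩
  rw [e, Measure.volume_eq_prod, ← Measure.prod_restrict, lintegral_prod]
  · refine setLIntegral_congr_fun measurableSet_Ioo fun r hr => ?_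
    have hr0 := ha.trans_lt hr.1
    have hc : Continuous fun θ => g (circleMap 0 r θ) :=
      hg.comp_continuous (continuous_circleMap 0 r) (hmem r hr)
    simp only
    rw [← ofReal_integral_eq_lintegral_ofReal, avg_eq_pi, ← integral_Ioc_eq_integral_Ioo,
      ← intervalIntegral.integral_of_le (by linarith [pi_pos]),
      intervalIntegral.integral_const_mul]
    · congr 1
      simp only [smul_eq_mul]
      field_simp
    · exact ((continuous_const.mul hc).continuousOn.integrableOn_compact isCompact_Icc).mono_set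
        Ioo_subset_Icc_self
    · exact Eventually.of_forall fun θ => mul_nonneg hr0.le (h0 _ (hmem r hr θ))
  · rw [Measure.prod_restrict, ← Measure.volume_eq_prod]
    refine ContinuousOn.aemeasurable ?_ (measurableSet_Ioo.prod measurableSet_Ioo)
    refine ENNReal.continuous_ofReal.comp_continuousOn (continuousOn_fst.mul ?_)
    refine hg.comp (Continuous.continuousOn ?_) fun p hp => hmem _ hp.1 _
    unfold circleMap
    fun_prop

lemma det_mul_complex (c : ℂ) : (ContinuousLinearMap.mul ℝ ℂ c).det = ‖c‖ ^ 2 := by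
  rw [← Complex.normSq_eq_norm_sq, ← Algebra.norm_complex_apply, Algebra.norm_apply]
  rfl

lemma change_var {g : ℂ → ℂ} {U : Set ℂ} (hU : IsOpen U) (hg : DifferentiableOn ℂ g U)
    (hi : InjOn g U) (G : ℂ → ENNReal) :
    ∫⁻ z in g '' U, G z = ∫⁻ u in U, ENNReal.ofReal (‖deriv g u‖ ^ 2) * G (g u) := by
  rw [lintegral_image_eq_lintegral_abs_det_fderiv_mul volume hU.measurableSet
    (f' := fun u => ContinuousLinearMap.mul ℝ ℂ (deriv g u)) ?_ hi]
  · simp only [det_mul_complex, abs_pow, abs_norm]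
  · intro u hu
    have h := ((hg.differentiableAt (hU.mem_nhds hu)).hasDerivAt.hasFDerivAt.restrictScalars ℝ)
    refine HasFDerivAt.hasFDerivWithinAt (h.congr_fderiv ?_)
    refine ContinuousLinearMap.ext fun v => ?_
    simp [mul_comm]

lemma deriv_ne_zero_of_injOn {f : ℂ → ℂ} {U : Set ℂ} (hU : IsOpen U)
    (hf : DifferentiableOn ℂ f U) (hi : InjOn f U) {a : ℂ} (ha : a ∈ U) : deriv f a ≠ 0 := by
  intro h0
  have hA : AnalyticAt ℂ (fun z => f z - f a) a :=
    (hf.analyticAt (hU.mem_nhds ha)).sub analyticAt_const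
  have hne : ¬ ∀ᶠ z in 𝓝 a, f z - f a = 0 := by
    intro h
    have h1 : ∀ᶠ z in 𝓝[≠] a, False := by
      filter_upwards [nhdsWithin_le_nhds h, nhdsWithin_le_nhds (hU.mem_nhds ha),
        self_mem_nhdsWithin] with z hz hzU hza
      exact hza (hi hzU ha (sub_eq_zero.1 hz))
    exact (h1.exists).elim fun _ h => h
  obtain ⟨k, g, hg, hg0, hfg⟩ := hA.exists_eventuallyEq_pow_smul_nonzero_iff.2 hne
  have hk0 : k ≠ 0 := by
    rintro rfl
    have := hfg.self_of_nhds
    simp at this
    exact hg0 this.symm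
  have hk1 : k ≠ 1 := by
    rintro rfl
    have h1 : HasDerivAt (fun z => (z - a) ^ 1 • g z) (g a) a := by
      have := ((hasDerivAt_id' a).sub_const a).fun_mul hg.differentiableAt.hasDerivAt
      simp only [sub_self, zero_mul, add_zero, one_mul] at this
      simp only [pow_one, smul_eq_mul]
      exact this
    have h2 : HasDerivAt (fun z => f z - f a) (deriv f a) a :=
      (hf.differentiableAt (hU.mem_nhds ha)).hasDerivAt.sub_const _
    have h3 := (h1.congr_of_eventuallyEq hfg).unique h2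
    exact hg0 (h3.trans h0)
  have hkc : (k : ℂ) ≠ 0 := by exact_mod_cast hk0
  set ψ : ℂ → ℂ := fun z => (z - a) * cexp (Complex.log (g z / g a) / k) with hψ
  have hq : AnalyticAt ℂ (fun z => g z / g a) a := hg.div_const
  have hψA : AnalyticAt ℂ ψ a := by
    refine (analyticAt_id.sub analyticAt_const).mul (AnalyticAt.cexp' ?_)
    refine AnalyticAt.div_const (hq.clog ?_)
    rw [div_self hg0]
    exact Complex.one_mem_slitPlane
  have hgne : ∀ᶠ z in 𝓝 a, g z ≠ 0 := hg.continuousAt.eventually_ne hg0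
  have hpow : ∀ᶠ z in 𝓝 a, z ∈ U ∧ f z - f a = ψ z ^ k * g a := by
    filter_upwards [hfg, hgne, hU.mem_nhds ha] with z hz hz0 hzU
    refine ⟨hzU, ?_⟩
    rw [hz, hψ]
    simp only [smul_eq_mul, mul_pow]
    rw [← Complex.exp_nat_mul, mul_div_cancel₀ _ hkc, Complex.exp_log (div_ne_zero hz0 hg0)]
    field_simp
  have hψa : ψ a = 0 := by simp [hψ]
  rcases hψA.eventually_constant_or_nhds_le_map_nhds with h | h
  · refine hne ?_
    filter_upwards [h, hpow] with z hz hz2
    rw [hz2.2, hz, hψa, zero_pow hk0, zero_mul]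
  · rw [hψa] at h
    have h1 := h (image_mem_map hpow)
    obtain ⟨ε, hε, hball⟩ := Metric.mem_nhds_iff.1 h1
    set ω := cexp (2 * π * I / k)
    have hω := Complex.isPrimitiveRoot_exp k hk0
    have hω1 : ω ≠ 1 := hω.ne_one (by omega)
    have hωn : ‖ω‖ = 1 := hω.norm'_eq_one hk0
    obtain ⟨z1, hz1, e1⟩ := hball (show ((ε / 2 : ℝ) : ℂ) ∈ ball (0 : ℂ) ε by
      simp [abs_of_pos hε, hε])
    obtain ⟨z2, hz2, e2⟩ := hball (show ω * ((ε / 2 : ℝ) : ℂ) ∈ ball (0 : ℂ) ε by
      simp [abs_of_pos hε, hε, hωn])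
    have e3 : f z1 = f z2 := by
      have a1 := hz1.2
      have a2 := hz2.2
      rw [e1] at a1
      rw [e2, mul_pow, hω.pow_eq_one, one_mul] at a2
      linear_combination a1 - a2
    have e4 := hi hz1.1 hz2.1 e3
    rw [e4, e2] at e1
    have : ((ε / 2 : ℝ) : ℂ) ≠ 0 := by exact_mod_cast (half_pos hε).ne'
    exact hω1 (mul_right_cancel₀ this (e1.trans (one_mul _).symm))

end Vale.Agent.P142
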