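import Mathlib

/-!
# The discrete optimisation step
-/

open Set Filter Function MeasureTheory Real
open scoped Topology ComplexConjugate

namespace Vale.Agent.P142

lemma riemann {G : ℝ → ℝ → ℝ} (hG : Continuous (uncurry G)) :
    Tendsto (fun K : ℕ => (1 / K : ℝ) * ∑ b ∈ Finset.range K, G (b / K) (1 / K)) atTop
      (𝓝 (∫ t in (0 : ℝ)..1, G t 0)) := by
  rw [Metric.tendsto_atTop]
  intro ε hε
  have hU := (isCompact_Icc.prod isCompact_Icc :
    IsCompact (Icc (0 : ℝ) 1 ×ˢ Icc (0 : ℝ) 1)).uniformContinuousOn_of_continuous hG.continuousOn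
  obtain ⟨δ, hδ, hU⟩ := Metric.uniformContinuousOn_iff_le.1 hU (ε / 2) (half_pos hε)
  obtain ⟨K0, hK0⟩ := exists_nat_one_div_lt hδ
  refine ⟨K0 + 1, fun K hK => ?_⟩
  have hK1 : (1 : ℝ) ≤ K := by exact_mod_cast (by omega : 1 ≤ K)
  have hKp : (0 : ℝ) < K := by linarith
  have hKδ : 1 / (K : ℝ) ≤ δ := by
    refine le_trans (one_div_le_one_div_of_le (by positivity) ?_) hK0.le
    exact_mod_cast hK
  have hc : Continuous fun t => G t 0 := hG.comp (by fun_prop : Continuous fun t : ℝ => (t, (0 : ℝ)))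
  have hsum := intervalIntegral.sum_integral_adjacent_intervals (f := fun t => G t 0) (μ := volume)
    (a := fun k : ℕ => (k : ℝ) / K) (n := K) (fun k _ => hc.intervalIntegrable _ _)
  simp only [Nat.cast_zero, zero_div, div_self hKp.ne'] at hsum
  rw [← hsum, Real.dist_eq, Finset.mul_sum, ← Finset.sum_sub_distrib]
  refine (Finset.abs_sum_le_sum_abs _ _).trans_lt ?_
  have hb : ∀ b ∈ Finset.range K, |1 / (K : ℝ) * G (b / K) (1 / K)
      - ∫ t in ((b : ℝ) / K)..(((b + 1 : ℕ) : ℝ) / K), G t 0| ≤ ε / 2 * (1 / K) := by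
    intro b hb
    have hbK : (b : ℝ) + 1 ≤ K := by exact_mod_cast Finset.mem_range.1 hb
    have e1 : ((b + 1 : ℕ) : ℝ) / K - b / K = 1 / K := by push_cast; ring
    have hle : (b : ℝ) / K ≤ ((b + 1 : ℕ) : ℝ) / K := by
      have : 0 < 1 / (K : ℝ) := by positivity
      linarith
    have e2 : 1 / (K : ℝ) * G (b / K) (1 / K)
        = ∫ _ in ((b : ℝ) / K)..(((b + 1 : ℕ) : ℝ) / K), G (b / K) (1 / K) := by
      rw [intervalIntegral.integral_const, e1, smul_eq_mul]
    rw [e2, ← intervalIntegral.integral_sub intervalIntegrable_const (hc.intervalIntegrable _ _),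
      ← Real.norm_eq_abs]
    refine (intervalIntegral.norm_integral_le_of_norm_le_const (C := ε / 2) ?_).trans ?_
    · intro t ht
      rw [uIoc_of_le hle] at ht
      have hb0 : (0 : ℝ) ≤ b / K := by positivity
      have hb1 : ((b + 1 : ℕ) : ℝ) / K ≤ 1 := by
        rw [div_le_one hKp]
        push_cast
        exact hbK
      have hK2 : 1 / (K : ℝ) ≤ 1 := by rw [div_le_one hKp]; exact hK1
      have hK3 : 0 ≤ 1 / (K : ℝ) := by positivity
      have := hU (b / K, 1 / K) ⟨⟨hb0, hle.trans hb1⟩, hK3, hK2⟩ (t, 0)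
        ⟨⟨hb0.trans ht.1.le, ht.2.trans hb1⟩, le_rfl, zero_le_one⟩ (by
          rw [Prod.dist_eq, max_le_iff, Real.dist_eq, Real.dist_eq, sub_zero, abs_of_nonneg hK3,
            abs_sub_comm, abs_of_nonneg (sub_nonneg.2 ht.1.le)]
          exact ⟨by linarith [ht.2], hKδ⟩)
      rwa [dist_eq_norm] at this
    · rw [e1, abs_of_nonneg (by positivity)]
  refine (Finset.sum_le_sum hb).trans_lt ?_
  rw [Finset.sum_const, Finset.card_range, nsmul_eq_mul]
  have : (K : ℝ) * (ε / 2 * (1 / K)) = ε / 2 := by field_simp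
  linarith

/-- The multiplier polynomial. -/
def PP (σ : ℝ) : ℝ := 2 - 48 * σ + 880 * σ ^ 2 - 5600 * σ ^ 3 + 13060 * σ ^ 4

/-- The integrand of the lower bound. -/
noncomputable def GG (t η : ℝ) : ℝ :=
  (1 - η - t) * t * PP ((1 - η - t) * t)
    - (1 - η - t) * t ^ 2 * PP ((1 - η - t) * t) ^ 2 * (t + 3 * η) ^ (25 / 8 : ℝ)

lemma GG_cont : Continuous (uncurry GG) := by
  have h := Real.continuous_rpow_const (q := 25 / 8) (by norm_num)
  have h2 : Continuous fun p : ℝ × ℝ => (p.1 + 3 * p.2) ^ (25 / 8 : ℝ) := h.comp (by fun_prop)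
  unfold uncurry GG PP
  fun_prop

lemma int_poly (c : ℕ → ℝ) (n : ℕ) {β : ℝ} (hβ : 0 ≤ β) :
    ∫ t in (0 : ℝ)..1, (∑ k ∈ Finset.range n, c k * t ^ k) * t ^ β
      = ∑ k ∈ Finset.range n, c k / (k + β + 1) := by
  have h := Real.continuous_rpow_const hβ
  simp only [Finset.sum_mul]
  rw [intervalIntegral.integral_finsetSum fun k _ => Continuous.intervalIntegrable (by fun_prop) _ _]
  refine Finset.sum_congr rfl fun k _ => ?_
  have hk : (0 : ℝ) ≤ k + β := by positivity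
  rw [intervalIntegral.integral_congr_ae (g := fun t => c k * t ^ (k + β))
    (Eventually.of_forall fun t ht => ?_), intervalIntegral.integral_const_mul,
    integral_rpow (Or.inl (by linarith)), Real.one_rpow, Real.zero_rpow (by linarith)]
  · ring
  · rw [uIoc_of_le zero_le_one] at ht
    rw [Real.rpow_add ht.1, Real.rpow_natCast, mul_assoc]

lemma GG_int : 1 + 1 / 4000 < 153 / 64 * ∫ t in (0 : ℝ)..1, GG t 0 := by
  set A : ℕ → ℝ := fun k => ([0, 2, -50, 976, -8288, 38100, -99780, 153000, -136200, 65300,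
    -13060] : List ℝ).getD k 0 with hA
  set B : ℕ → ℝ := fun k => ([0, 0, 4, -196, 6208, -124544, 1809232, -18578064, 135074080,
    -707086880, 2711013600, -7700795040, 16300276160, -25718749760, 30062664800, -25640975200,
    15497518400, -6286561600, 1535072400, -170563600] : List ℝ).getD k 0 with hB
  have e : ∀ t : ℝ, GG t 0 = (∑ k ∈ Finset.range 11, A k * t ^ k) * t ^ (0 : ℝ)
      - (∑ k ∈ Finset.range 20, B k * t ^ k) * t ^ (25 / 8 : ℝ) := by
    intro t
    simp only [GG, PP, hA, hB, Finset.sum_range_succ, Finset.sum_range_zero, List.getD_cons_zero,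
      List.getD_cons_succ, Real.rpow_zero, mul_zero, add_zero, sub_zero]
    ring
  have h := Real.continuous_rpow_const (q := 25 / 8) (by norm_num)
  have h0 := Real.continuous_rpow_const (q := 0) le_rfl
  simp only [e]
  rw [intervalIntegral.integral_sub (Continuous.intervalIntegrable (by fun_prop) _ _)
    (Continuous.intervalIntegrable (by fun_prop) _ _), int_poly _ _ le_rfl,
    int_poly _ _ (by norm_num)]
  simp only [hA, hB, Finset.sum_range_succ, Finset.sum_range_zero, List.getD_cons_zero,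
      List.getD_cons_succ]
  norm_num

lemma GG_ev : ∃ m0 : ℕ, ∀ m : ℕ, m0 ≤ m → 1 + 1 / 4000 ≤ 153 / 64 *
    ((1 / ((m + 1 : ℕ) : ℝ)) * ∑ b ∈ Finset.range (m + 1),
      GG (b / ((m + 1 : ℕ) : ℝ)) (1 / ((m + 1 : ℕ) : ℝ))) := by
  have h := ((riemann GG_cont).const_mul (153 / 64)).eventually (lt_mem_nhds GG_int)
  obtain ⟨m0, h⟩ := eventually_atTop.1 h
  exact ⟨m0, fun m hm => (h (m + 1) (by omega)).le⟩

lemma gam {a c : ℝ} (ha : 0 < a) (hc : 0 < c) :
    IntegrableOn (fun s : ℝ => s ^ (a - 1) * exp (-(c * s))) (Ioi 0) ∧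
      ∫ s : ℝ in Ioi 0, s ^ (a - 1) * exp (-(c * s)) = c ^ (-a) * Gamma a := by
  have h := integral_rpow_mul_exp_neg_mul_Ioi ha hc
  refine ⟨Integrable.of_integral_ne_zero ?_, ?_⟩
  · rw [h]
    have := Gamma_pos_of_pos ha
    positivity
  · rw [h, Real.rpow_neg hc.le, one_div, Real.inv_rpow hc.le]

lemma integrate {X : ℕ → ℝ} (hX0 : ∀ n, 0 ≤ X n) (hX : Summable X) {R : ℕ → ℕ → ℝ} {N : ℕ}
    (h : ∀ r : ℝ, 0 < r → r < 1 → ∑ a ∈ Finset.range N, ∑ b ∈ Finset.range N,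
      a * (R a b * r ^ (2 * b)) ≤ (∑' n, X n * r ^ (2 * n)) / (1 - r ^ 2) ^ 2) :
    153 / 64 * ∑ a ∈ Finset.range N, ∑ b ∈ Finset.range N, a * R a b * (b + 3 : ℝ) ^ (-(25 / 8) : ℝ)
      ≤ ∑' n, X n * (n + 1 : ℝ) ^ (-(9 / 8) : ℝ) := by
  have hw : ∀ n : ℕ, (n + 1 : ℝ) ^ (-(9 / 8) : ℝ) ≤ 1 := fun n =>
    Real.rpow_le_one_of_one_le_of_nonpos (by linarith [Nat.cast_nonneg (α := ℝ) n]) (by norm_num)
  have hY : Summable fun n => X n * (n + 1 : ℝ) ^ (-(9 / 8) : ℝ) :=
    Summable.of_nonneg_of_le (fun n => mul_nonneg (hX0 n) (by positivity))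
      (fun n => mul_le_of_le_one_right (hX0 n) (hw n)) hX
  have hG : 0 < Gamma (9 / 8) := Gamma_pos_of_pos (by norm_num)
  have hG2 : Gamma (25 / 8) = 153 / 64 * Gamma (9 / 8) := by
    rw [show (25 / 8 : ℝ) = 17 / 8 + 1 by norm_num, Gamma_add_one (by norm_num),
      show (17 / 8 : ℝ) = 9 / 8 + 1 by norm_num, Gamma_add_one (by norm_num)]
    ring
  have key : ∀ L : ℕ, 153 / 64 * ∑ a ∈ Finset.range N, ∑ b ∈ Finset.range N,
      a * R a b * (b + 3 : ℝ) ^ (-(25 / 8) : ℝ)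
      ≤ (∑' n, X n * (n + 1 : ℝ) ^ (-(9 / 8) : ℝ)) + ∑' n, X (n + L) := by
    intro L
    set T := ∑' n, X (n + L) with hT
    have hT0 : 0 ≤ T := tsum_nonneg fun n => hX0 _
    have i1 : ∀ b : ℕ, IntegrableOn (fun s : ℝ => s ^ (25 / 8 - 1 : ℝ) * exp (-((b + 3) * s)))
        (Ioi 0) := fun b => (gam (by norm_num) (by positivity)).1
    have i2 : ∀ b : ℕ, IntegrableOn (fun s : ℝ => s ^ (9 / 8 - 1 : ℝ) * exp (-((b + 1) * s)))
        (Ioi 0) := fun b => (gam (by norm_num) (by positivity)).1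
    have i3 := (gam (a := 9 / 8) (c := 1) (by norm_num) one_pos)
    have hmono : ∫ s in Ioi (0 : ℝ), ∑ a ∈ Finset.range N, ∑ b ∈ Finset.range N,
        a * R a b * (s ^ (25 / 8 - 1 : ℝ) * exp (-((b + 3) * s)))
        ≤ ∫ s in Ioi (0 : ℝ), (∑ n ∈ Finset.range L,
          X n * (s ^ (9 / 8 - 1 : ℝ) * exp (-((n + 1) * s))))
          + T * (s ^ (9 / 8 - 1 : ℝ) * exp (-(1 * s))) := by
      refine setIntegral_mono_on ?_ ?_ measurableSet_Ioi fun s hs => ?_
      · exact integrable_finsetSum _ fun a _ => integrable_finsetSum _ fun b _ => (i1 b).const_mul _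
      · exact (integrable_finsetSum _ fun n _ => (i2 n).const_mul _).add (i3.1.const_mul _)
      have hs0 : 0 < s := hs
      set r := exp (-(s / 2)) with hr
      have hr0 : 0 < r := exp_pos _
      have hr1 : r < 1 := by
        rw [hr, Real.exp_lt_one_iff]
        linarith
      have hrp : ∀ n : ℕ, r ^ (2 * n) = exp (-(n * s)) := by
        intro n
        rw [hr, ← Real.exp_nat_mul]
        congr 1
        push_cast
        ring
      have hr2 : r ^ 2 = exp (-s) := by simpa using hrp 1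
      have h1 := h r hr0 hr1
      have hsum : Summable fun n => X n * r ^ (2 * n) :=
        Summable.of_nonneg_of_le (fun n => mul_nonneg (hX0 n) (by positivity))
          (fun n => mul_le_of_le_one_right (hX0 n) (pow_le_one₀ hr0.le hr1.le)) hX
      have h2 : ∑' n, X n * r ^ (2 * n) ≤ ∑ n ∈ Finset.range L, X n * r ^ (2 * n) + T := by
        rw [← hsum.sum_add_tsum_nat_add L]
        refine add_le_add le_rfl (Summable.tsum_le_tsum (fun n => ?_)
          ((summable_nat_add_iff L).2 hsum) ((summable_nat_add_iff L).2 hX))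
        exact mul_le_of_le_one_right (hX0 _) (pow_le_one₀ hr0.le hr1.le)
      have h3 : s * exp (-s) ≤ 1 - r ^ 2 := by
        rw [hr2]
        have := Real.add_one_le_exp s
        have h4 : exp s * exp (-s) = 1 := by rw [← Real.exp_add]; simp
        nlinarith [exp_pos (-s)]
      have h5 : 0 < s * exp (-s) := by positivity
      have h6 : 0 ≤ ∑' n, X n * r ^ (2 * n) :=
        tsum_nonneg fun n => mul_nonneg (hX0 n) (by positivity)
      have h7 := h1.trans (div_le_div₀ (h6.trans h2) h2 (pow_pos h5 2)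
        (pow_le_pow_left₀ h5.le h3 2))
      have h8 : s ^ (25 / 8 - 1 : ℝ) = s ^ (9 / 8 - 1 : ℝ) * s ^ 2 := by
        rw [← Real.rpow_natCast, ← Real.rpow_add hs0]
        norm_num
      have h9 := mul_le_mul_of_nonneg_right h7
        (show 0 ≤ s ^ (25 / 8 - 1 : ℝ) * exp (-s) ^ 3 by positivity)
      refine le_trans (le_of_eq ?_) (h9.trans (le_of_eq ?_))
      · simp only [Finset.sum_mul]
        refine Finset.sum_congr rfl fun a _ => Finset.sum_congr rfl fun b _ => ?_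
        have : exp (-((b + 3) * s)) = exp (-(b * s)) * exp (-s) ^ 3 := by
          rw [← Real.exp_nat_mul, ← Real.exp_add]
          congr 1
          push_cast
          ring
        rw [hrp, this]
        ring
      · have e : ∀ n : ℕ, X n * (s ^ (9 / 8 - 1 : ℝ) * exp (-((n + 1) * s)))
            = X n * r ^ (2 * n) * (s ^ (9 / 8 - 1 : ℝ) * exp (-s)) := by
          intro n
          have : exp (-((n + 1) * s)) = exp (-(n * s)) * exp (-s) := by
            rw [← Real.exp_add]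
            congr 1
            ring
          rw [hrp, this]
          ring
        simp only [e, one_mul]
        rw [← Finset.sum_mul, h8]
        have := (exp_pos (-s)).ne'
        field_simp
    rw [integral_finsetSum _ fun a _ => integrable_finsetSum _ fun b _ => (i1 b).const_mul _,
      integral_add (integrable_finsetSum _ fun n _ => (i2 n).const_mul _) (i3.1.const_mul _),
      integral_finsetSum _ fun n _ => (i2 n).const_mul _, integral_const_mul, i3.2] at hmono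
    have e1 : ∀ a ∈ Finset.range N, ∫ s in Ioi (0 : ℝ), ∑ b ∈ Finset.range N,
        a * R a b * (s ^ (25 / 8 - 1 : ℝ) * exp (-((b + 3) * s)))
        = (∑ b ∈ Finset.range N, a * R a b * (b + 3 : ℝ) ^ (-(25 / 8) : ℝ)) * Gamma (25 / 8) := by
      intro a _
      rw [integral_finsetSum _ fun b _ => (i1 b).const_mul _, Finset.sum_mul]
      refine Finset.sum_congr rfl fun b _ => ?_
      rw [integral_const_mul, (gam (by norm_num) (by positivity)).2]
      ring
    have e2 : ∀ n ∈ Finset.range L, ∫ s in Ioi (0 : ℝ),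
        X n * (s ^ (9 / 8 - 1 : ℝ) * exp (-((n + 1) * s)))
        = X n * (n + 1 : ℝ) ^ (-(9 / 8) : ℝ) * Gamma (9 / 8) := by
      intro n _
      rw [integral_const_mul, (gam (by norm_num) (by positivity)).2]
      ring
    rw [Finset.sum_congr rfl e1, Finset.sum_congr rfl e2, ← Finset.sum_mul, ← Finset.sum_mul, hG2,
      Real.one_rpow] at hmono
    have h10 := hY.sum_le_tsum (Finset.range L) (fun n _ => mul_nonneg (hX0 n) (by positivity))
    refine le_of_mul_le_mul_right ?_ hG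
    nlinarith
  have ht := (tendsto_sum_nat_add X).const_add (∑' n, X n * (n + 1 : ℝ) ^ (-(9 / 8) : ℝ))
  rw [add_zero] at ht
  exact ge_of_tendsto' ht key

lemma quad (u x : ℂ) (ν : ℝ) {B : ℝ} (hB : 0 < B) :
    2 * ν * (conj x * u).re - ν ^ 2 * B * ‖x‖ ^ 2 ≤ ‖u‖ ^ 2 * B⁻¹ := by
  have h : 0 ≤ ((u.re - ν * B * x.re) ^ 2 + (u.im - ν * B * x.im) ^ 2) * B⁻¹ := by positivity
  have e : ((u.re - ν * B * x.re) ^ 2 + (u.im - ν * B * x.im) ^ 2) * B⁻¹
      = ‖u‖ ^ 2 * B⁻¹ - (2 * ν * (conj x * u).re - ν ^ 2 * B * ‖x‖ ^ 2) := by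
    simp only [Complex.sq_norm, Complex.normSq_apply, Complex.mul_re, Complex.conj_re,
      Complex.conj_im]
    field_simp
    ring
  linarith

lemma antidiag {ρ : ℕ → ℕ → ℂ} {x : ℂ} {m : ℕ} (hρ : ∀ a b, a + b = m → ρ a b + ρ b a = x) :
    ‖x‖ ^ 2 * ((m + 1 : ℕ) : ℝ) ^ (-(9 / 8) : ℝ) * ((1 / ((m + 1 : ℕ) : ℝ)) *
      ∑ b ∈ Finset.range (m + 1), GG (b / ((m + 1 : ℕ) : ℝ)) (1 / ((m + 1 : ℕ) : ℝ)))
      ≤ ∑ b ∈ Finset.range (m + 1),
        ((m - b : ℕ) : ℝ) * ‖ρ (m - b) b‖ ^ 2 * (b + 3 : ℝ) ^ (-(25 / 8) : ℝ) := by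
  set K : ℝ := ((m + 1 : ℕ) : ℝ) with hK
  have hK0 : 0 < K := by positivity
  set q := K ^ (-(9 / 8) : ℝ) with hq
  set Lam : ℕ → ℕ → ℝ := fun a b => q / K * ((a / K) * (b / K) * PP ((a / K) * (b / K))) with hLam
  have hsym : ∀ a b, Lam a b = Lam b a := fun a b => by
    simp only [hLam, mul_comm ((a : ℝ) / K)]
  have hflip : ∑ b ∈ Finset.range (m + 1), 2 * Lam (m - b) b * (conj x * ρ (m - b) b).re
      = ∑ b ∈ Finset.range (m + 1), Lam (m - b) b * ‖x‖ ^ 2 := by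
    have h1 := Finset.sum_flip (n := m) fun b => Lam (m - b) b * (conj x * ρ (m - b) b).re
    simp only [two_mul, add_mul, Finset.sum_add_distrib]
    nth_rewrite 1 [← h1]
    rw [← Finset.sum_add_distrib]
    refine Finset.sum_congr rfl fun b hb => ?_
    have hb' : b ≤ m := Nat.lt_succ_iff.1 (Finset.mem_range.1 hb)
    rw [Nat.sub_sub_self hb', hsym b, ← mul_add, ← Complex.add_re, ← mul_add,
      hρ b (m - b) (by omega), Complex.conj_mul']
    norm_cast
  have hpt : ∀ b ∈ Finset.range (m + 1), 2 * Lam (m - b) b * (conj x * ρ (m - b) b).re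
      - (Lam (m - b) b * ‖x‖ ^ 2 - ‖x‖ ^ 2 * q * (1 / K * GG (b / K) (1 / K)))
      ≤ ((m - b : ℕ) : ℝ) * ‖ρ (m - b) b‖ ^ 2 * (b + 3 : ℝ) ^ (-(25 / 8) : ℝ) := by
    intro b hb
    have hb' : b ≤ m := Nat.lt_succ_iff.1 (Finset.mem_range.1 hb)
    set a : ℝ := ((m - b : ℕ) : ℝ) with ha
    have ha0 : 0 ≤ a := Nat.cast_nonneg _
    have hv : 1 - 1 / K - b / K = a / K := by
      rw [ha, Nat.cast_sub hb']
      field_simp
      rw [hK]
      push_cast
      ring
    have hB : (0 : ℝ) < (b + 3 : ℝ) ^ (25 / 8 : ℝ) := by positivity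
    have hB2 : (b / K + 3 * (1 / K) : ℝ) ^ (25 / 8 : ℝ) = (b + 3 : ℝ) ^ (25 / 8 : ℝ) * (q / K ^ 2) := by
      rw [show (b / K + 3 * (1 / K) : ℝ) = (b + 3) / K by ring,
        Real.div_rpow (by positivity) hK0.le, hq, Real.rpow_neg hK0.le,
        show (25 / 8 : ℝ) = 9 / 8 + (2 : ℕ) by norm_num, Real.rpow_add hK0, Real.rpow_natCast]
      field_simp
    have h1 := mul_le_mul_of_nonneg_left (quad (ρ (m - b) b) x
      (q / K ^ 2 * (b / K) * PP (a / K * (b / K))) hB) ha0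
    rw [Real.rpow_neg (by positivity)]
    refine le_trans (le_of_eq ?_) (h1.trans (le_of_eq (by ring)))
    simp only [hLam, GG, hv, hB2, ← ha]
    field_simp
    ring
  have h2 := Finset.sum_le_sum hpt
  rw [Finset.sum_sub_distrib, Finset.sum_sub_distrib, hflip, ← Finset.mul_sum,
    ← Finset.mul_sum] at h2
  linarith

theorem discrete : ∃ m0 : ℕ, ∀ (x : ℕ → ℂ) (ρ : ℕ → ℕ → ℂ), Summable (fun n => ‖x n‖ ^ 2) →
    (∀ a b, ρ a b + ρ b a = x (a + b + 1)) →
    (∀ r : ℝ, 0 < r → r < 1 → ∀ N : ℕ,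
      ∑ a ∈ Finset.range N, ∑ b ∈ Finset.range N, a * (‖ρ a b‖ ^ 2 * r ^ (2 * b))
        ≤ (∑' n, ‖x n‖ ^ 2 * r ^ (2 * n)) / (1 - r ^ 2) ^ 2) →
    ∑' n, ‖x n‖ ^ 2 * (n + 1 : ℝ) ^ (-(9 / 8) : ℝ) ≤ 4001 * ∑ n ∈ Finset.range (m0 + 1), ‖x n‖ ^ 2 := by
  obtain ⟨m0, hm0⟩ := GG_ev
  refine ⟨m0, fun x ρ hX hρ h => ?_⟩
  set y : ℕ → ℝ := fun n => ‖x n‖ ^ 2 * (n + 1 : ℝ) ^ (-(9 / 8) : ℝ) with hy
  have hw : ∀ n : ℕ, (n + 1 : ℝ) ^ (-(9 / 8) : ℝ) ≤ 1 := fun n =>
    Real.rpow_le_one_of_one_le_of_nonpos (by linarith [Nat.cast_nonneg (α := ℝ) n]) (by norm_num)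
  have hy0 : ∀ n, 0 ≤ y n := fun n => by positivity
  have hy1 : ∀ n, y n ≤ ‖x n‖ ^ 2 := fun n => mul_le_of_le_one_right (by positivity) (hw n)
  have hY : Summable y := Summable.of_nonneg_of_le hy0 hy1 hX
  have key : ∀ j : ℕ, (1 + 1 / 4000) * ∑ i ∈ Finset.range j, y (i + (m0 + 1)) ≤ ∑' n, y n := by
    intro j
    refine le_trans ?_ (integrate (R := fun a b => ‖ρ a b‖ ^ 2) (N := m0 + j) (fun n => by positivity)
      hX fun r hr0 hr1 => h r hr0 hr1 _)
    have h1 : ∑ m ∈ Finset.range (m0 + j), ∑ b ∈ Finset.range (m + 1),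
        ((m - b : ℕ) : ℝ) * ‖ρ (m - b) b‖ ^ 2 * (b + 3 : ℝ) ^ (-(25 / 8) : ℝ)
        ≤ ∑ a ∈ Finset.range (m0 + j), ∑ b ∈ Finset.range (m0 + j),
          a * ‖ρ a b‖ ^ 2 * (b + 3 : ℝ) ^ (-(25 / 8) : ℝ) := by
      rw [Finset.sum_range_diag_flip (m0 + j)
        (fun b a => (a : ℝ) * ‖ρ a b‖ ^ 2 * (b + 3 : ℝ) ^ (-(25 / 8) : ℝ)), Finset.sum_comm]
      refine Finset.sum_le_sum fun b _ => Finset.sum_le_sum_of_subset_of_nonneg
        (Finset.range_mono (Nat.sub_le _ _)) fun a _ _ => by positivity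
    refine le_trans ?_ (mul_le_mul_of_nonneg_left h1 (by norm_num))
    rw [Finset.sum_range_add, mul_add]
    refine le_add_of_nonneg_of_le (by positivity) ?_
    rw [Finset.mul_sum, Finset.mul_sum]
    refine Finset.sum_le_sum fun i _ => ?_
    have h2 := antidiag (ρ := ρ) (x := x (m0 + i + 1)) (m := m0 + i)
      (fun a b hab => by rw [hρ, hab])
    have h3 := hm0 (m0 + i) (by omega)
    refine le_trans ?_ (mul_le_mul_of_nonneg_left h2 (by norm_num))
    have h4 : y (i + (m0 + 1))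
        ≤ ‖x (m0 + i + 1)‖ ^ 2 * ((m0 + i + 1 : ℕ) : ℝ) ^ (-(9 / 8) : ℝ) := by
      simp only [hy]
      rw [show i + (m0 + 1) = m0 + i + 1 by omega]
      refine mul_le_mul_of_nonneg_left ?_ (by positivity)
      exact Real.rpow_le_rpow_of_nonpos (by positivity) (by linarith) (by norm_num)
    have h5 : 0 ≤ ‖x (m0 + i + 1)‖ ^ 2 * ((m0 + i + 1 : ℕ) : ℝ) ^ (-(9 / 8) : ℝ) := by positivity
    nlinarith
  have h6 : (1 + 1 / 4000) * ∑' i, y (i + (m0 + 1)) ≤ ∑' n, y n :=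
    le_of_tendsto' (((summable_nat_add_iff (m0 + 1)).2 hY).hasSum.tendsto_sum_nat.const_mul _) key
  have h7 := hY.sum_add_tsum_nat_add (m0 + 1)
  have h8 : ∑ n ∈ Finset.range (m0 + 1), y n ≤ ∑ n ∈ Finset.range (m0 + 1), ‖x n‖ ^ 2 :=
    Finset.sum_le_sum fun n _ => hy1 n
  linarith

end Vale.Agent.P142
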