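import Vale.Agent.P142.Area
import Vale.Agent.Lib.RiemannMapping

/-!
# The regular part of `1 / (f z - f w)`: area inequality and antisymmetry
-/

open Metric Set Filter Function Complex MeasureTheory Real
open scoped Topology ComplexConjugate

namespace Vale.Agent.P142

open Vale.Agent.Lib.RMT

lemma co_deriv (F : ℂ → ℂ) (n : ℕ) : co (deriv F) n = (n + 1) * co F (n + 1) := by
  rw [co, co, ← iteratedDeriv_succ', Nat.factorial_succ]
  have : (n.factorial : ℂ) ≠ 0 := by exact_mod_cast n.factorial_ne_zero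
  have : ((n : ℂ) + 1) ≠ 0 := by exact_mod_cast n.succ_ne_zero
  push_cast
  field_simp

lemma dirichlet_ge {R : ℂ → ℂ} (hR : DifferentiableOn ℂ R (ball 0 1)) (N : ℕ) :
    ENNReal.ofReal (π * ∑ a ∈ Finset.range N, (a + 1) * ‖co R (a + 1)‖ ^ 2)
      ≤ ∫⁻ u in ann 0 1, ENNReal.ofReal (‖deriv R u‖ ^ 2) := by
  have hR' := diff_deriv hR
  rw [polar (g := fun u => ‖deriv R u‖ ^ 2) le_rfl
    ((hR'.continuousOn.mono (ann_sub le_rfl)).norm.pow 2) (fun _ _ => by positivity)]
  set g : ℝ → ℝ := fun r => ∑ a ∈ Finset.range N,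
    2 * π * ((a + 1) * ‖co R (a + 1)‖) ^ 2 * r ^ (2 * a + 1) with hg
  have hI : ∫ r in (0 : ℝ)..1, g r = π * ∑ a ∈ Finset.range N, (a + 1) * ‖co R (a + 1)‖ ^ 2 := by
    rw [hg, intervalIntegral.integral_finsetSum (fun a _ => Continuous.intervalIntegrable
      (by fun_prop) _ _), Finset.mul_sum]
    refine Finset.sum_congr rfl fun a _ => ?_
    rw [intervalIntegral.integral_const_mul, integral_pow]
    have : (a : ℝ) + 1 ≠ 0 := by positivity
    simp only [one_pow, ne_eq, Nat.add_eq_zero_iff, mul_eq_zero, OfNat.ofNat_ne_zero, false_or,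
      one_ne_zero, and_false, not_false_eq_true, zero_pow, sub_zero]
    push_cast
    field_simp
    ring
  have hgc : Continuous g := by rw [hg]; fun_prop
  rw [← hI, intervalIntegral.integral_of_le zero_le_one, integral_Ioc_eq_integral_Ioo,
    ofReal_integral_eq_lintegral_ofReal
      ((hgc.continuousOn.integrableOn_compact isCompact_Icc).mono_set Ioo_subset_Icc_self)]
  · refine setLIntegral_mono' measurableSet_Ioo fun r hr => ENNReal.ofReal_le_ofReal ?_
    have hd := hR'.mono (closedBall_subset_ball hr.2)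
    have hb := bessel hr.1 (cont_cm hr.1 (hd.continuousOn.mono sphere_subset_closedBall)) N
    simp only [lc_eq_co hr.1 hd, co_deriv] at hb
    refine le_trans (le_of_eq ?_) (mul_le_mul_of_nonneg_left hb (by have := hr.1; positivity))
    rw [hg, Finset.mul_sum]
    refine Finset.sum_congr rfl fun a _ => ?_
    have : ‖(a : ℂ) + 1‖ = a + 1 := by exact_mod_cast Complex.norm_natCast (a + 1)
    rw [norm_mul, this]
    ring
  · filter_upwards [ae_restrict_mem measurableSet_Ioo] with r hr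
    have := hr.1
    simp only [Pi.zero_apply, hg]
    positivity

/-- The regular part of `z ↦ 1 / (f z - f w)`. -/
noncomputable def reg (f : ℂ → ℂ) (w : ℂ) : ℂ → ℂ := dslope (fun z => (dslope f w z)⁻¹) w

variable {f : ℂ → ℂ}

lemma dslope_ne (hf : DifferentiableOn ℂ f (ball 0 1)) (hi : InjOn f (ball 0 1)) {w z : ℂ}
    (hw : w ∈ ball (0 : ℂ) 1) (hz : z ∈ ball (0 : ℂ) 1) : dslope f w z ≠ 0 := by
  rcases eq_or_ne z w with rfl | h
  · rw [dslope_same]
    exact deriv_ne_zero_of_injOn isOpen_ball hf hi hw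
  · rw [dslope_of_ne _ h, slope_def_field]
    exact div_ne_zero (sub_ne_zero.2 fun e => h (hi hz hw e)) (sub_ne_zero.2 h)

lemma reg_diff (hf : DifferentiableOn ℂ f (ball 0 1)) (hi : InjOn f (ball 0 1)) {w : ℂ}
    (hw : w ∈ ball (0 : ℂ) 1) : DifferentiableOn ℂ (reg f w) (ball 0 1) :=
  (Complex.differentiableOn_dslope (isOpen_ball.mem_nhds hw)).2
    (((Complex.differentiableOn_dslope (isOpen_ball.mem_nhds hw)).2 hf).inv
      fun _ hz => dslope_ne hf hi hw hz)

lemma reg_eq {w z : ℂ} (h : z ≠ w) :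
    (f z - f w)⁻¹ = reg f w z + (deriv f w)⁻¹ * (z - w)⁻¹ := by
  rw [reg, dslope_of_ne _ h, slope_def_field, dslope_of_ne _ h, slope_def_field, dslope_same,
    inv_div]
  have : z - w ≠ 0 := sub_ne_zero.2 h
  field_simp
  ring

lemma point_ineq (hf : DifferentiableOn ℂ f (ball 0 1)) (hi : InjOn f (ball 0 1)) {w : ℂ}
    (hw : w ∈ ball (0 : ℂ) 1) (N : ℕ) :
    ∑ a ∈ Finset.range N, a * ‖co (reg f w) a‖ ^ 2
      ≤ ‖(deriv f w)⁻¹‖ ^ 2 / (1 - ‖w‖ ^ 2) ^ 2 := by
  have hw1 : ‖w‖ < 1 := mem_ball_zero_iff.1 hw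
  have hw2 : ‖-w‖ < 1 := by rwa [norm_neg]
  have hpos : 0 < 1 - ‖w‖ ^ 2 := by nlinarith [norm_nonneg w]
  have hR := reg_diff hf hi hw
  set c : ℂ := (deriv f w)⁻¹ / ((1 - ‖w‖ ^ 2 : ℝ) : ℂ) with hc
  have hcr : ((1 - ‖w‖ ^ 2 : ℝ) : ℂ) ≠ 0 := by exact_mod_cast hpos.ne'
  have hc0 : c ≠ 0 := div_ne_zero (inv_ne_zero (deriv_ne_zero_of_injOn isOpen_ball hf hi hw)) hcr
  have hmap : ∀ u ∈ ball (0 : ℂ) 1, mob (-w) u ∈ ball (0 : ℂ) 1 := fun u hu =>
    mem_ball_zero_iff.2 (norm_mob_lt hw2 (mem_ball_zero_iff.1 hu))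
  have hmd : ∀ u ∈ ball (0 : ℂ) 1, DifferentiableAt ℂ (mob (-w)) u := fun u hu =>
    (hasDerivAt_mob hw2 (mem_ball_zero_iff.1 hu).le).differentiableAt
  have hmi : InjOn (mob (-w)) (ball 0 1) := fun u hu v hv e =>
    mob_inj hw2 (mem_ball_zero_iff.1 hu).le (mem_ball_zero_iff.1 hv).le e
  have hm0 : mob (-w) 0 = w := by simp [mob]
  have hne : ∀ u ∈ ann 0 1, mob (-w) u ≠ w := fun u hu e =>
    ann_ne le_rfl hu (hmi (ann_sub le_rfl hu) (mem_ball_self one_pos) (e.trans hm0.symm))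
  set P : ℂ → ℂ := fun u => c * conj w + reg f w (mob (-w) u) with hP
  have hPd : ∀ u ∈ ball (0 : ℂ) 1,
      HasDerivAt P (deriv (reg f w) (mob (-w) u) * deriv (mob (-w)) u) u := fun u hu =>
    (((hR.differentiableAt (isOpen_ball.mem_nhds (hmap u hu))).hasDerivAt.comp u
      (hmd u hu).hasDerivAt)).const_add _
  have hF : ∀ u ∈ ann 0 1, c / u + P u = (f (mob (-w) u) - f w)⁻¹ := by
    intro u hu
    rw [reg_eq (hne u hu), hP]
    have h0 := ann_ne le_rfl hu
    have h1 := mob_den_ne hw2 hu.2.le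
    have h2 : mob (-w) u - w = u * ((1 - ‖w‖ ^ 2 : ℝ) : ℂ) / (1 - conj (-w) * u) := by
      rw [mob, div_sub' h1]
      congr 1
      push_cast
      rw [← Complex.mul_conj', map_neg]
      ring
    rw [h2, hc, map_neg]
    simp only
    rw [map_neg] at h1
    field_simp
    ring
  have hA := area hc0 (fun u hu => (hPd u hu).differentiableAt.differentiableWithinAt) (by
    intro u hu v hv e
    simp only at e
    rw [hF u hu, hF v hv, inv_inj, sub_left_inj] at e
    exact hmi (ann_sub le_rfl hu) (ann_sub le_rfl hv)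
      (hi (hmap u (ann_sub le_rfl hu)) (hmap v (ann_sub le_rfl hv)) e))
  have hCV := change_var (isOpen_ann 0 1)
    (fun u hu => (hmd u (ann_sub le_rfl hu)).differentiableWithinAt) (hmi.mono (ann_sub le_rfl))
    (fun z => ENNReal.ofReal (‖deriv (reg f w) z‖ ^ 2))
  have hsub : ann 0 1 \ {w} ⊆ mob (-w) '' ann 0 1 := by
    intro z hz
    refine ⟨mob w z, ⟨norm_pos_iff.2 fun e => hz.2 (mob_eq_zero hw1 hz.1.2.le e),
      norm_mob_lt hw1 hz.1.2⟩, mob_neg_mob hw1 hz.1.2.le⟩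
  have h1 : ∫⁻ u in ann 0 1, ENNReal.ofReal (‖deriv (reg f w) u‖ ^ 2)
      ≤ ENNReal.ofReal (π * ‖c‖ ^ 2) := by
    rw [← setLIntegral_congr (sdiff_null_ae_eq_self (measure_singleton w))]
    refine (lintegral_mono_set hsub).trans ?_
    rw [hCV]
    refine le_trans (le_of_eq ?_) hA
    refine setLIntegral_congr_fun (isOpen_ann 0 1).measurableSet fun u hu => ?_
    rw [(hPd u (ann_sub le_rfl hu)).deriv, ← ENNReal.ofReal_mul (by positivity), norm_mul]
    congr 1
    ring
  have h2 := (ENNReal.ofReal_le_ofReal_iff (by positivity)).1 ((dirichlet_ge hR N).trans h1)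
  have h3 := le_of_mul_le_mul_left h2 pi_pos
  rw [hc, norm_div, Complex.norm_real, Real.norm_of_nonneg hpos.le, div_pow] at h3
  refine le_trans ?_ h3
  have h4 := Finset.sum_range_succ' (fun a : ℕ => (a : ℝ) * ‖co (reg f w) a‖ ^ 2) N
  rw [Finset.sum_range_succ] at h4
  push_cast at h4
  have : (0 : ℝ) ≤ N * ‖co (reg f w) N‖ ^ 2 := by positivity
  linarith

lemma avg_pole_out {w : ℂ} {s : ℝ} (hs : ‖w‖ < s) (a : ℕ) :
    circleAverage (fun z => (z - w)⁻¹ * z ^ (-(a : ℤ))) 0 s = 0 := by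
  have hs0 : 0 < s := (norm_nonneg w).trans_lt hs
  have hs' : (s : ℂ) ≠ 0 := by exact_mod_cast hs0.ne'
  rw [circleAverage_eq_circleAverage_zero_one, ← circleAverage_zero_one_congr_inv]
  have e : EqOn (fun x : ℂ => ((s : ℂ) * x⁻¹ + 0 - w)⁻¹ * ((s : ℂ) * x⁻¹ + 0) ^ (-(a : ℤ)))
      (fun x => x ^ (a + 1) * ((s : ℂ) ^ a * (s - w * x))⁻¹) (sphere 0 |1|) := by
    intro x hx
    have hx0 : x ≠ 0 := by
      rintro rfl
      simp at hx
    have : (s : ℂ) * x⁻¹ + 0 - w = (s - w * x) / x := by field_simp; ring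
    simp only [this]
    simp only [add_zero, zpow_neg, zpow_natCast, mul_pow, inv_pow, mul_inv, inv_inv, inv_div]
    ring
  rw [circleAverage_congr_sphere e, avg_holo one_pos]
  · simp
  · refine (differentiableOn_pow _).mul (DifferentiableOn.inv (by fun_prop) fun x hx => ?_)
    refine mul_ne_zero (pow_ne_zero _ hs') (sub_ne_zero.2 fun h => ?_)
    have h1 : s = ‖w‖ * ‖x‖ := by simpa [abs_of_pos hs0] using congrArg norm h
    have h2 : ‖x‖ ≤ 1 := mem_closedBall_zero_iff.1 hx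
    nlinarith [norm_nonneg w]

lemma cont_pole {w : ℂ} {s : ℝ} (hs0 : 0 < s) (hs : ‖w‖ ≠ s) (a : ℤ) :
    ContinuousOn (fun z => (z - w)⁻¹ * z ^ a) (sphere 0 s) := by
  refine ((continuousOn_id.sub continuousOn_const).inv₀ fun z hz h => ?_).mul
    (continuousOn_id.zpow₀ _ fun z hz => Or.inl ?_)
  · have h1 : z = w := sub_eq_zero.1 h
    exact hs (by rw [← h1]; simpa using hz)
  · rintro rfl
    simp at hz
    exact hs0.ne hz

lemma avg_pole_in {w : ℂ} {s : ℝ} (hs0 : 0 < s) (hs : s < ‖w‖) (a : ℕ) :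
    circleAverage (fun z => (z - w)⁻¹ * z ^ (-(a : ℤ))) 0 s = -w ^ (-((a + 1 : ℕ) : ℤ)) := by
  have hw0 : w ≠ 0 := norm_pos_iff.1 (hs0.trans hs)
  induction a with
  | zero =>
    simp only [Nat.cast_zero, neg_zero, zpow_zero, mul_one]
    rw [avg_holo hs0]
    · simp
    · refine (differentiableOn_id.sub_const w).inv fun z hz h => ?_
      have h1 : z = w := sub_eq_zero.1 h
      have h2 := mem_closedBall_zero_iff.1 hz
      rw [h1] at h2
      linarith
  | succ a ih =>
    have e : EqOn (fun z : ℂ => (z - w)⁻¹ * z ^ (-((a + 1 : ℕ) : ℤ)))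
        (fun z => w⁻¹ • ((z - w)⁻¹ * z ^ (-(a : ℤ)) - (z - 0)⁻¹ * z ^ (-(a : ℤ))))
        (sphere 0 |s|) := by
      intro z hz
      rw [abs_of_pos hs0] at hz
      have hn : ‖z‖ = s := by simpa using hz
      have hz0 : z ≠ 0 := norm_pos_iff.1 (hn ▸ hs0)
      have hzw : z - w ≠ 0 := sub_ne_zero.2 fun h => by rw [h] at hn; linarith
      simp only [zpow_neg, zpow_natCast, smul_eq_mul, sub_zero]
      field_simp
      ring
    rw [circleAverage_congr_sphere e, circleAverage_fun_smul, circleAverage_fun_sub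
      ((cont_pole hs0 hs.ne' _).circleIntegrable hs0.le)
      ((cont_pole hs0 (by simpa using hs0.ne) _).circleIntegrable hs0.le), ih,
      avg_pole_out (by simpa using hs0)]
    simp only [zpow_neg, zpow_natCast, smul_eq_mul, sub_zero]
    field_simp
    ring

lemma avg_split (hf : DifferentiableOn ℂ f (ball 0 1)) (hi : InjOn f (ball 0 1)) {w : ℂ}
    (hw : w ∈ ball (0 : ℂ) 1) {s : ℝ} (hs0 : 0 < s) (hs1 : s < 1) (hs : ‖w‖ ≠ s) (a : ℕ) :
    circleAverage (fun z => (f z - f w)⁻¹ * z ^ (-(a : ℤ))) 0 s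
      = co (reg f w) a
        + (deriv f w)⁻¹ * circleAverage (fun z => (z - w)⁻¹ * z ^ (-(a : ℤ))) 0 s := by
  have hR := (reg_diff hf hi hw).mono (closedBall_subset_ball hs1)
  have e : EqOn (fun z : ℂ => (f z - f w)⁻¹ * z ^ (-(a : ℤ)))
      (fun z => reg f w z * z ^ (-(a : ℤ)) + (deriv f w)⁻¹ • ((z - w)⁻¹ * z ^ (-(a : ℤ))))
      (sphere 0 |s|) := by
    intro z hz
    rw [abs_of_pos hs0] at hz
    have hn : ‖z‖ = s := by simpa using hz
    have hzw : z ≠ w := fun h => hs (h ▸ hn)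
    simp only [reg_eq hzw, smul_eq_mul]
    ring
  rw [circleAverage_congr_sphere e, circleAverage_fun_add, circleAverage_fun_smul,
    ← lc_eq_co hs0 hR, lc, smul_eq_mul]
  · refine ContinuousOn.circleIntegrable hs0.le ((hR.continuousOn.mono sphere_subset_closedBall).mul
      (continuousOn_id.zpow₀ _ fun z hz => Or.inl ?_))
    rintro rfl
    simp at hz
    exact hs0.ne hz
  · exact ((cont_pole hs0 hs _).circleIntegrable hs0.le).const_fun_smul

lemma cont_kernel (hf : DifferentiableOn ℂ f (ball 0 1)) (hi : InjOn f (ball 0 1)) {s r : ℝ}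
    (hs0 : 0 < s) (hs1 : s < 1) (hr0 : 0 < r) (hr1 : r < 1) (hsr : s ≠ r) (a b : ℤ) :
    Continuous fun p : ℝ × ℝ => (f (circleMap 0 s p.1) - f (circleMap 0 r p.2))⁻¹
      * circleMap 0 s p.1 ^ a * circleMap 0 r p.2 ^ b := by
  have hs := cont_cm hs0 (hf.continuousOn.mono (sphere_subset_ball hs1))
  have hr := cont_cm hr0 (hf.continuousOn.mono (sphere_subset_ball hr1))
  refine ((((hs.comp continuous_fst).sub (hr.comp continuous_snd)).inv₀ fun p h => ?_).mul
    (((continuous_circleMap 0 s).comp continuous_fst).zpow₀ _ fun p => Or.inl (cm_ne hs0 _))).mul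
    (((continuous_circleMap 0 r).comp continuous_snd).zpow₀ _ fun p => Or.inl (cm_ne hr0 _))
  have e := hi (sphere_subset_ball hs1 (cm_mem hs0 p.1)) (sphere_subset_ball hr1 (cm_mem hr0 p.2))
    (sub_eq_zero.1 h)
  exact hsr (by rw [← norm_cm hs0 p.1, e, norm_cm hr0])

lemma inv_deriv_diff (hf : DifferentiableOn ℂ f (ball 0 1)) (hi : InjOn f (ball 0 1)) :
    DifferentiableOn ℂ (fun z => (deriv f z)⁻¹) (ball 0 1) :=
  (diff_deriv hf).inv fun _ hz => deriv_ne_zero_of_injOn isOpen_ball hf hi hz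

lemma cont_co (hf : DifferentiableOn ℂ f (ball 0 1)) (hi : InjOn f (ball 0 1)) {r : ℝ}
    (hr0 : 0 < r) (hr1 : r < 1) (a : ℕ) :
    Continuous fun θ => co (reg f (circleMap 0 r θ)) a := by
  have hs0 : 0 < (r + 1) / 2 := by linarith
  have hs1 : (r + 1) / 2 < 1 := by linarith
  have hrs : r < (r + 1) / 2 := by linarith
  have h := avg_cont (G := fun z w => (f z - f w)⁻¹ * z ^ (-(a : ℤ)) * w ^ (0 : ℤ))
    (cont_kernel hf hi hs0 hs1 hr0 hr1 hrs.ne' _ _)
  refine h.congr fun θ => ?_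
  simp only [zpow_zero, mul_one]
  rw [avg_split hf hi (sphere_subset_ball hr1 (cm_mem hr0 θ)) hs0 hs1
    (by rw [norm_cm hr0]; exact hrs.ne), avg_pole_out (by rw [norm_cm hr0]; exact hrs)]
  simp

lemma antisym (hf : DifferentiableOn ℂ f (ball 0 1)) (hi : InjOn f (ball 0 1)) {s r : ℝ}
    (hr0 : 0 < r) (hrs : r < s) (hs1 : s < 1) (a b : ℕ) :
    lc (fun w => co (reg f w) a) r b + lc (fun w => co (reg f w) b) s a
      = co (fun z => (deriv f z)⁻¹) (a + b + 1) := by
  have hs0 := hr0.trans hrs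
  have hr1 := hrs.trans hs1
  have hsw := avg_swap (G := fun z w => (f z - f w)⁻¹ * z ^ (-(a : ℤ)) * w ^ (-(b : ℤ)))
    (cont_kernel hf hi hs0 hs1 hr0 hr1 hrs.ne' _ _)
  have hh := (inv_deriv_diff hf hi).mono (closedBall_subset_ball hs1)
  have e1 : EqOn (fun w => circleAverage
      (fun z => (f z - f w)⁻¹ * z ^ (-(a : ℤ)) * w ^ (-(b : ℤ))) 0 s)
      (fun w => co (reg f w) a * w ^ (-(b : ℤ))) (sphere 0 |r|) := by
    intro w hw
    rw [abs_of_pos hr0] at hw
    have hn : ‖w‖ = r := by simpa using hw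
    have : (fun z => (f z - f w)⁻¹ * z ^ (-(a : ℤ)) * w ^ (-(b : ℤ)))
        = fun z => w ^ (-(b : ℤ)) • ((f z - f w)⁻¹ * z ^ (-(a : ℤ))) := by
      funext z
      rw [smul_eq_mul, mul_comm]
    simp only [this]
    rw [circleAverage_fun_smul, avg_split hf hi (sphere_subset_ball hr1 hw) hs0 hs1
      (by rw [hn]; exact hrs.ne), avg_pole_out (by rw [hn]; exact hrs)]
    simp [mul_comm]
  have e2 : EqOn (fun z => circleAverage
      (fun w => (f z - f w)⁻¹ * z ^ (-(a : ℤ)) * w ^ (-(b : ℤ))) 0 r)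
      (fun z => (deriv f z)⁻¹ * z ^ (-((a + b + 1 : ℕ) : ℤ))
        - co (reg f z) b * z ^ (-(a : ℤ))) (sphere 0 |s|) := by
    intro z hz
    rw [abs_of_pos hs0] at hz
    have hn : ‖z‖ = s := by simpa using hz
    have hz0 : z ≠ 0 := norm_pos_iff.1 (hn ▸ hs0)
    have : (fun w => (f z - f w)⁻¹ * z ^ (-(a : ℤ)) * w ^ (-(b : ℤ)))
        = fun w => (-z ^ (-(a : ℤ))) • ((f w - f z)⁻¹ * w ^ (-(b : ℤ))) := by
      funext w
      rw [smul_eq_mul, ← neg_sub (f w), inv_neg]
      ring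
    simp only [this]
    rw [circleAverage_fun_smul, avg_split hf hi (sphere_subset_ball hs1 hz) hr0 hr1
      (by rw [hn]; exact hrs.ne'), avg_pole_in hr0 (by rw [hn]; exact hrs)]
    simp only [zpow_neg, zpow_natCast, smul_eq_mul]
    field_simp
    ring
  rw [circleAverage_congr_sphere e1, circleAverage_congr_sphere e2, circleAverage_fun_sub] at hsw
  · rw [← lc_eq_co hs0 hh]
    simp only [lc]
    rw [hsw]
    ring
  · refine ContinuousOn.circleIntegrable hs0.le ((hh.continuousOn.mono sphere_subset_closedBall).mul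
      (continuousOn_id.zpow₀ _ fun z hz => Or.inl ?_))
    rintro rfl
    simp at hz
    exact hs0.ne hz
  · exact ((cont_co hf hi hs0 hs1 b).mul ((continuous_circleMap 0 s).zpow₀ _
      fun θ => Or.inl (cm_ne hs0 θ))).intervalIntegrable _ _

/-- The coefficient inequality and the antisymmetry relation. -/
theorem coeff_ineq (hf : DifferentiableOn ℂ f (ball 0 1)) (hi : InjOn f (ball 0 1)) :
    ∃ ρ : ℕ → ℕ → ℂ, (∀ a b, ρ a b + ρ b a = co (fun z => (deriv f z)⁻¹) (a + b + 1)) ∧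
      ∀ r : ℝ, 0 < r → r < 1 → ∀ N : ℕ,
        ∑ a ∈ Finset.range N, ∑ b ∈ Finset.range N, a * (‖ρ a b‖ ^ 2 * r ^ (2 * b))
          ≤ (∑' n : ℕ, ‖co (fun z => (deriv f z)⁻¹) n‖ ^ 2 * r ^ (2 * n)) / (1 - r ^ 2) ^ 2 := by
  have hind : ∀ r : ℝ, 0 < r → r < 1 → ∀ a b : ℕ,
      lc (fun w => co (reg f w) a) r b = lc (fun w => co (reg f w) a) (1 / 2) b := by
    intro r hr0 hr1 a b
    have hm : max r (1 / 2) < 1 := max_lt hr1 (by norm_num)
    obtain ⟨s, hs, hs1⟩ := exists_between hm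
    have h1 := antisym hf hi hr0 ((le_max_left _ _).trans_lt hs) hs1 a b
    have h2 := antisym hf hi (by norm_num : (0 : ℝ) < 1 / 2) ((le_max_right _ _).trans_lt hs) hs1 a b
    linear_combination h1 - h2
  refine ⟨fun a b => lc (fun w => co (reg f w) a) (1 / 2) b, fun a b => ?_, ?_⟩
  · have h := antisym hf hi (by norm_num : (0 : ℝ) < 1 / 2) (by norm_num : (1 / 2 : ℝ) < 3 / 4)
      (by norm_num) a b
    rwa [hind (3 / 4) (by norm_num) (by norm_num)] at h
  · intro r hr0 hr1 N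
    have hh := (inv_deriv_diff hf hi).mono (closedBall_subset_ball hr1)
    rw [(parseval_holo hr0 hh).tsum_eq]
    have hci : ∀ a : ℕ, CircleIntegrable (fun w => ‖co (reg f w) a‖ ^ 2) 0 r := fun a =>
      ((cont_co hf hi hr0 hr1 a).norm.pow 2).intervalIntegrable _ _
    calc ∑ a ∈ Finset.range N, ∑ b ∈ Finset.range N,
          a * (‖lc (fun w => co (reg f w) a) (1 / 2) b‖ ^ 2 * r ^ (2 * b))
        ≤ ∑ a ∈ Finset.range N, (a : ℝ) • circleAverage (fun w => ‖co (reg f w) a‖ ^ 2) 0 r := by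
          refine Finset.sum_le_sum fun a _ => ?_
          rw [← Finset.mul_sum, smul_eq_mul]
          refine mul_le_mul_of_nonneg_left ?_ (Nat.cast_nonneg a)
          have := bessel (F := fun w => co (reg f w) a) hr0 (cont_co hf hi hr0 hr1 a) N
          simpa only [hind r hr0 hr1] using this
      _ = circleAverage (fun w => ∑ a ∈ Finset.range N, (a : ℝ) • ‖co (reg f w) a‖ ^ 2) 0 r := by
          rw [circleAverage_fun_sum (fun a _ => (hci a).const_fun_smul)]
          simp only [circleAverage_fun_smul]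
      _ ≤ circleAverage (fun w => ((1 - r ^ 2) ^ 2)⁻¹ • ‖(deriv f w)⁻¹‖ ^ 2) 0 r := by
          refine circleAverage_mono ?_ ?_ fun w hw => ?_
          · exact (continuous_finsetSum _ fun a _ =>
              ((cont_co hf hi hr0 hr1 a).norm.pow 2).const_smul (a : ℝ)).intervalIntegrable _ _
          · exact (((hh.continuousOn.mono sphere_subset_closedBall).norm.pow 2).circleIntegrable
              hr0.le).const_fun_smul
          · rw [abs_of_pos hr0] at hw
            have hn : ‖w‖ = r := by simpa using hw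
            have := point_ineq hf hi (sphere_subset_ball hr1 hw) N
            rw [hn] at this
            simp only [smul_eq_mul]
            rwa [div_eq_inv_mul] at this
      _ = _ := by rw [circleAverage_fun_smul, smul_eq_mul, div_eq_inv_mul]

end Vale.Agent.P142
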