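import Vale.Agent.P142.Kernel
import Vale.Agent.P142.Discrete

/-!
# Growth of the integral means of `1 / f'` and integrability
-/

open Metric Set Filter Function Complex MeasureTheory Real
open scoped Topology ComplexConjugate

namespace Vale.Agent.P142

variable {f : ℂ → ℂ}

lemma avg_dilate (F : ℂ → ℂ) (s r : ℝ) :
    circleAverage (fun z => F (s * z)) 0 r = circleAverage F 0 (s * r) := by
  simp only [circleAverage, circleMap, zero_add]
  push_cast
  simp only [mul_assoc]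

lemma coeff_sum (hf : DifferentiableOn ℂ f (ball 0 1)) (hi : InjOn f (ball 0 1)) :
    ∃ C : ℝ, 0 ≤ C ∧ ∀ s : ℝ, 0 < s → s < 1 →
      ∑' n, ‖co (fun z => (deriv f z)⁻¹) n‖ ^ 2 * s ^ (2 * n) * (n + 1 : ℝ) ^ (-(9 / 8) : ℝ) ≤ C := by
  obtain ⟨m0, hm0⟩ := discrete
  set x := co (fun z => (deriv f z)⁻¹) with hx
  refine ⟨4001 * ∑ n ∈ Finset.range (m0 + 1), ‖x n‖ ^ 2, by positivity, fun s hs0 hs1 => ?_⟩
  have hs' : (s : ℂ) ≠ 0 := by exact_mod_cast hs0.ne'
  have hmap : ∀ z ∈ ball (0 : ℂ) 1, (s : ℂ) * z ∈ ball (0 : ℂ) 1 := by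
    intro z hz
    rw [mem_ball_zero_iff] at hz ⊢
    rw [norm_mul, Complex.norm_real, Real.norm_of_nonneg hs0.le]
    nlinarith [norm_nonneg z]
  set g : ℂ → ℂ := fun z => (s : ℂ)⁻¹ * f (s * z) with hg
  have hgd : ∀ z ∈ ball (0 : ℂ) 1, HasDerivAt g (deriv f (s * z)) z := by
    intro z hz
    have := ((hf.differentiableAt (isOpen_ball.mem_nhds (hmap z hz))).hasDerivAt.comp z
      ((hasDerivAt_id' z).const_mul (s : ℂ))).const_mul (s : ℂ)⁻¹
    refine this.congr_deriv ?_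
    field_simp
  have hgD : DifferentiableOn ℂ g (ball 0 1) := fun z hz =>
    (hgd z hz).differentiableAt.differentiableWithinAt
  have hgi : InjOn g (ball 0 1) := fun z hz w hw e =>
    mul_left_cancel₀ hs' (hi (hmap z hz) (hmap w hw) (mul_left_cancel₀ (inv_ne_zero hs') e))
  have hco : ∀ n, co (fun z => (deriv g z)⁻¹) n = (s : ℂ) ^ n * x n := by
    intro n
    have h2 : (0 : ℝ) < 1 / 2 := by norm_num
    have h3 : (1 / 2 : ℝ) < 1 := by norm_num
    rw [← lc_eq_co h2 ((inv_deriv_diff hgD hgi).mono (closedBall_subset_ball h3)), hx,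
      ← lc_eq_co (mul_pos hs0 h2) ((inv_deriv_diff hf hi).mono
        (closedBall_subset_ball (by linarith))), lc, lc, ← avg_dilate, ← smul_eq_mul,
      ← circleAverage_fun_smul]
    refine circleAverage_congr_sphere fun z hz => ?_
    rw [abs_of_pos h2] at hz
    simp only [(hgd z (sphere_subset_ball h3 hz)).deriv, zpow_neg, zpow_natCast, smul_eq_mul,
      mul_pow, mul_inv]
    field_simp
  have hn : ∀ n, ‖co (fun z => (deriv g z)⁻¹) n‖ ^ 2 = ‖x n‖ ^ 2 * s ^ (2 * n) := by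
    intro n
    rw [hco, norm_mul, norm_pow, Complex.norm_real, Real.norm_of_nonneg hs0.le]
    ring
  obtain ⟨ρ, h1, h2⟩ := coeff_ineq hgD hgi
  have h3 := hm0 _ ρ (by
    simp only [hn]
    exact (parseval_holo hs0 ((inv_deriv_diff hf hi).mono (closedBall_subset_ball hs1))).summable)
    h1 h2
  simp only [hn] at h3
  refine h3.trans (mul_le_mul_of_nonneg_left (Finset.sum_le_sum fun n _ => ?_) (by norm_num))
  exact mul_le_of_le_one_right (by positivity) (pow_le_one₀ hs0.le hs1.le)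

theorem mean_bound (hf : DifferentiableOn ℂ f (ball 0 1)) (hi : InjOn f (ball 0 1)) :
    ∃ C : ℝ, 0 ≤ C ∧ ∀ r : ℝ, 0 < r → r < 1 →
      circleAverage (fun z => ‖(deriv f z)⁻¹‖ ^ 2) 0 r ≤ C * (1 - r) ^ (-(9 / 8) : ℝ) := by
  obtain ⟨C, hC0, hC⟩ := coeff_sum hf hi
  refine ⟨C * 2 ^ (9 / 8 : ℝ), by positivity, fun r hr0 hr1 => ?_⟩
  set s := √r with hs
  have hs0 : 0 < s := Real.sqrt_pos.2 hr0
  have hs2 : s ^ 2 = r := Real.sq_sqrt hr0.le
  have hs1 : s < 1 := by nlinarith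
  have hh := inv_deriv_diff hf hi
  have hP := parseval_holo hr0 (hh.mono (closedBall_subset_ball hr1))
  have hS := (parseval_holo hs0 (hh.mono (closedBall_subset_ball hs1))).summable
  have hw : ∀ n : ℕ, (n + 1 : ℝ) ^ (-(9 / 8) : ℝ) ≤ 1 := fun n =>
    Real.rpow_le_one_of_one_le_of_nonpos (by linarith [Nat.cast_nonneg (α := ℝ) n]) (by norm_num)
  have hS2 : Summable fun n : ℕ => ‖co (fun z => (deriv f z)⁻¹) n‖ ^ 2 * s ^ (2 * n)
      * (n + 1 : ℝ) ^ (-(9 / 8) : ℝ) :=
    Summable.of_nonneg_of_le (fun n => by positivity)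
      (fun n => mul_le_of_le_one_right (by positivity) (hw n)) hS
  set D := 2 ^ (9 / 8 : ℝ) * (1 - r) ^ (-(9 / 8) : ℝ) with hD
  have h1r : 0 < 1 - r := by linarith
  have hb : ∀ n : ℕ, s ^ (2 * n) ≤ (n + 1 : ℝ) ^ (-(9 / 8) : ℝ) * D := by
    intro n
    have h1 : (n + 1 : ℝ) * s ^ n ≤ 2 / (1 - r) := by
      have h2 : (n + 1 : ℝ) * s ^ n ≤ ∑ k ∈ Finset.range (n + 1), s ^ k := by
        have := Finset.card_nsmul_le_sum (Finset.range (n + 1)) (fun k => s ^ k) (s ^ n)
          fun k hk => pow_le_pow_of_le_one hs0.le hs1.le (Nat.lt_succ_iff.1 (Finset.mem_range.1 hk))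
        simpa using this
      have h3 := mul_neg_geom_sum s (n + 1)
      rw [le_div_iff₀ h1r]
      have h4 : 0 ≤ s ^ (n + 1) := by positivity
      have h5 : 0 ≤ (n + 1 : ℝ) * s ^ n := by positivity
      have h6 : (1 - s) * ((n + 1 : ℝ) * s ^ n) ≤ 1 := by nlinarith
      nlinarith
    have h7 := Real.rpow_le_rpow (by positivity) h1 (by norm_num : (0 : ℝ) ≤ 9 / 8)
    rw [Real.mul_rpow (by positivity) (by positivity), Real.div_rpow (by norm_num) h1r.le] at h7
    have h8 : s ^ (2 * n) ≤ (s ^ n) ^ (9 / 8 : ℝ) := by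
      rw [mul_comm, pow_mul, ← Real.rpow_natCast _ 2]
      exact Real.rpow_le_rpow_of_exponent_ge (by positivity) (pow_le_one₀ hs0.le hs1.le)
        (by norm_num)
    have h9 : 0 < (n + 1 : ℝ) ^ (9 / 8 : ℝ) := by positivity
    rw [hD, Real.rpow_neg (by positivity), Real.rpow_neg h1r.le, ← div_eq_mul_inv,
      le_inv_mul_iff₀ h9]
    exact (mul_le_mul_of_nonneg_left h8 h9.le).trans h7
  rw [← hP.tsum_eq, mul_assoc, ← hD]
  refine le_trans ?_ (mul_le_mul_of_nonneg_right (hC s hs0 hs1) (by positivity))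
  rw [← tsum_mul_right]
  refine hP.summable.tsum_le_tsum (fun n => ?_) (hS2.mul_right _)
  rw [← hs2, ← pow_mul, show 2 * (2 * n) = 2 * n + 2 * n by ring, pow_add, mul_assoc, mul_assoc]
  exact mul_le_mul_of_nonneg_left (mul_le_mul_of_nonneg_left (hb n) (by positivity))
    (by positivity)

lemma mean_pos (hf : DifferentiableOn ℂ f (ball 0 1)) (hi : InjOn f (ball 0 1)) {r : ℝ}
    (hr0 : 0 < r) (hr1 : r < 1) : 0 < circleAverage (fun z => ‖(deriv f z)⁻¹‖ ^ 2) 0 r := by
  have hP := parseval_holo hr0 ((inv_deriv_diff hf hi).mono (closedBall_subset_ball hr1))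
  refine lt_of_lt_of_le ?_ (le_hasSum hP 0 fun n _ => by positivity)
  have := deriv_ne_zero_of_injOn isOpen_ball hf hi (mem_ball_self one_pos)
  simp [co, this]

lemma young {x l p : ℝ} (hx : 0 ≤ x) (hl : 0 < l) (hp0 : 0 ≤ p) (hp : p < 2) :
    x ^ p ≤ l * x ^ 2 + l ^ (-(p / (2 - p))) := by
  have h2 : 0 < 2 - p := by linarith
  rcases le_total x (l ^ (-(1 / (2 - p)))) with h | h
  · have := Real.rpow_le_rpow hx h hp0
    rw [← Real.rpow_mul hl.le, show -(1 / (2 - p)) * p = -(p / (2 - p)) by ring] at this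
    have : 0 ≤ l * x ^ 2 := by positivity
    linarith
  · have h3 := Real.rpow_le_rpow (by positivity) h h2.le
    rw [← Real.rpow_mul hl.le, show -(1 / (2 - p)) * (2 - p) = -1 by field_simp,
      Real.rpow_neg_one, inv_le_iff_one_le_mul₀' hl] at h3
    have hx0 : 0 < x := lt_of_lt_of_le (by positivity) h
    have h4 : x ^ 2 = x ^ (2 - p) * x ^ p := by
      rw [← Real.rpow_add hx0, ← Real.rpow_natCast]
      norm_num
    have h5 : 0 ≤ x ^ p := by positivity
    have : 0 ≤ l ^ (-(p / (2 - p))) := by positivity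
    rw [h4]
    nlinarith

lemma int_one_sub {a : ℝ} (ha : -1 < a) : IntegrableOn (fun r : ℝ => (1 - r) ^ a) (Ioo 0 1) := by
  have h := (intervalIntegral.intervalIntegrable_rpow' (a := 1) (b := 0) ha).comp_sub_left 1
  simp only [sub_self, sub_zero] at h
  exact (intervalIntegrable_iff_integrableOn_Ioo_of_le zero_le_one).1 h

theorem disc_finite (hf : DifferentiableOn ℂ f (ball 0 1)) (hi : InjOn f (ball 0 1)) {p : ℝ}
    (hp0 : 0 ≤ p) (hp : p < 16 / 9) :
    ∫⁻ z in ball (0 : ℂ) 1, ENNReal.ofReal (‖(deriv f z)⁻¹‖ ^ p) < ⊤ := by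
  obtain ⟨C, hC0, hC⟩ := mean_bound hf hi
  have hh := inv_deriv_diff hf hi
  have hp2 : 0 < 2 - p := by linarith
  have hq : p / (2 - p) < 8 := by
    rw [div_lt_iff₀ hp2]
    linarith
  have hq0 : 0 ≤ p / (2 - p) := by positivity
  obtain ⟨γ, hγ1, hγ2⟩ : ∃ γ : ℝ, 1 / 8 < γ ∧ γ * (p / (2 - p)) < 1 := by
    refine ⟨2 / (8 + p / (2 - p)), ?_, ?_⟩
    · rw [div_lt_div_iff₀ (by norm_num) (by positivity)]
      linarith
    · rw [div_mul_eq_mul_div, div_lt_one (by positivity)]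
      linarith
  have hsub : ball (0 : ℂ) 1 \ {0} ⊆ ann 0 1 := fun z hz =>
    ⟨norm_pos_iff.2 hz.2, mem_ball_zero_iff.1 hz.1⟩
  rw [← setLIntegral_congr (sdiff_null_ae_eq_self (measure_singleton (0 : ℂ)))]
  refine (lintegral_mono_set hsub).trans_lt ?_
  have hc : ContinuousOn (fun z => ‖(deriv f z)⁻¹‖ ^ p) (ball 0 1) :=
    hh.continuousOn.norm.rpow_const fun _ _ => Or.inr hp0
  rw [polar (g := fun z => ‖(deriv f z)⁻¹‖ ^ p) le_rfl (hc.mono (ann_sub le_rfl))
    (fun _ _ => by positivity)]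
  have hI : IntegrableOn (fun r : ℝ => 2 * π * (C * (1 - r) ^ (γ - 9 / 8)
      + (1 - r) ^ (-(γ * (p / (2 - p)))))) (Ioo 0 1) :=
    (((int_one_sub (by linarith)).const_mul C).add (int_one_sub (by linarith))).const_mul _
  refine lt_of_le_of_lt (setLIntegral_mono' measurableSet_Ioo fun r hr =>
    ENNReal.ofReal_le_ofReal ?_) hI.lintegral_lt_top
  have h1r : 0 < 1 - r := by linarith [hr.2]
  have hl : 0 < (1 - r) ^ γ := by positivity
  have hci : CircleIntegrable (fun z => ‖(deriv f z)⁻¹‖ ^ 2) 0 r :=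
    ((hh.continuousOn.mono (sphere_subset_ball hr.2)).norm.pow 2).circleIntegrable hr.1.le
  have h1 : circleAverage (fun z => ‖(deriv f z)⁻¹‖ ^ p) 0 r
      ≤ C * (1 - r) ^ (γ - 9 / 8) + (1 - r) ^ (-(γ * (p / (2 - p)))) := by
    calc circleAverage (fun z => ‖(deriv f z)⁻¹‖ ^ p) 0 r
        ≤ circleAverage (fun z => ((1 - r) ^ γ) • ‖(deriv f z)⁻¹‖ ^ 2
            + ((1 - r) ^ γ) ^ (-(p / (2 - p)))) 0 r :=
          circleAverage_mono ((hc.mono (sphere_subset_ball hr.2)).circleIntegrable hr.1.le)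
            (hci.const_fun_smul.add (circleIntegrable_const _ _ _))
            fun z _ => young (norm_nonneg _) hl hp0 (by linarith)
      _ = (1 - r) ^ γ * circleAverage (fun z => ‖(deriv f z)⁻¹‖ ^ 2) 0 r
            + ((1 - r) ^ γ) ^ (-(p / (2 - p))) := by
          rw [circleAverage_fun_add hci.const_fun_smul (circleIntegrable_const _ _ _),
            circleAverage_fun_smul, circleAverage_const, smul_eq_mul]
      _ ≤ _ := by
          refine add_le_add ((mul_le_mul_of_nonneg_left (hC r hr.1 hr.2) hl.le).trans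
            (le_of_eq ?_)) (le_of_eq ?_)
          · rw [sub_eq_add_neg γ, Real.rpow_add h1r]
            ring
          · rw [← Real.rpow_mul h1r.le, mul_neg]
  have h0 : 0 ≤ circleAverage (fun z => ‖(deriv f z)⁻¹‖ ^ p) 0 r :=
    circleAverage_nonneg_of_nonneg fun _ _ => by positivity
  rw [mul_assoc]
  refine mul_le_mul_of_nonneg_left ((mul_le_of_le_one_left h0 hr.2.le).trans h1) (by positivity)

theorem domain_finite {W : Set ℂ} {φ : ℂ → ℂ} (hW : IsOpen W) (hφ : DifferentiableOn ℂ φ W)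
    (hb : BijOn φ W (ball 0 1)) {s : ℝ} (hs0 : 2 ≤ s) (hs : s < 34 / 9) :
    ∫⁻ z in W, ENNReal.ofReal (‖deriv φ z‖ ^ s) < ⊤ := by
  set g := invFunOn φ W with hg
  have hinv : InvOn g φ W (ball 0 1) := hb.invOn_invFunOn
  have hgb : BijOn g (ball 0 1) W := hb.symm hinv.symm
  have hne : ∀ z ∈ W, deriv φ z ≠ 0 := fun z hz => deriv_ne_zero_of_injOn hW hφ hb.injOn hz
  have hgd : ∀ u ∈ ball (0 : ℂ) 1, HasDerivAt g (deriv φ (g u))⁻¹ u := by
    intro u hu
    have hz := hgb.mapsTo hu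
    have hS : HasStrictDerivAt φ (deriv φ (g u)) (g u) :=
      (hφ.analyticAt (hW.mem_nhds hz)).hasStrictDerivAt
    have h := hS.to_local_left_inverse (g := g) (hne _ hz)
      (by filter_upwards [hW.mem_nhds hz] with z hz using hinv.1 hz)
    rw [hinv.2 hu] at h
    exact h.hasDerivAt
  have hgD : DifferentiableOn ℂ g (ball 0 1) := fun u hu =>
    (hgd u hu).differentiableAt.differentiableWithinAt
  rw [← hgb.image_eq, change_var isOpen_ball hgD hgb.injOn]
  refine lt_of_eq_of_lt ?_ (disc_finite hgD hgb.injOn (p := s - 2) (by linarith) (by linarith))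
  refine setLIntegral_congr_fun measurableSet_ball fun u hu => ?_
  have h0 : 0 < ‖deriv φ (g u)‖ := norm_pos_iff.2 (hne _ (hgb.mapsTo hu))
  rw [(hgd u hu).deriv, inv_inv, ← ENNReal.ofReal_mul (by positivity), norm_inv,
    Real.rpow_sub h0, Real.rpow_two]
  congr 1
  field_simp

end Vale.Agent.P142
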